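import Mathlib
import Vale.Agent.P217.Defs
import Vale.Agent.P217.Interfaces

/-!
# P217, block B: pins

CorePin: the Newton iteration solving for the parameters a of the moved law and the digits t.
SigmaPin: completeness of E0 and the automorphism moving the parameters to a.
blockB_of (to be proved from both): BlockB.
-/

noncomputable section

namespace Vale.Agent.P217.B

/-- The logarithm coefficients of the curve with digits t. -/
def curveLog (p n : ℕ) [Fact p.Prime] (t : ℕ → E0 p n) (k : ℕ) : E0Inv p n :=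
  ∑ i ∈ Finset.range (k + 1),
    logCoeff p n (k - i) * algebraMap (E0 p n) (E0Inv p n) (t i) ^ p ^ (k - i)

/-- For every l ≥ 1 there are parameters a (with a n = 1, a i = 0 outside 1..n) and digits t
congruent to those of 1 + p ^ l c, whose curve satisfies the recursion of the logarithm for a;
they tend to the parameters v and to the digits of X. -/
def CorePin : Prop :=
  ∀ (p n : ℕ) [Fact p.Prime], 2 ≤ n → ∀ c : ℕ → GaloisField p n,
    ∃ a t : ℕ → ℕ → E0 p n,
      (∀ l, 1 ≤ l →
        a l n = 1 ∧ (∀ i, ¬(1 ≤ i ∧ i ≤ n) → a l i = 0) ∧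
        (∀ i, 1 ≤ i → i < n → a l i ∈ IsLocalRing.maximalIdeal (E0 p n)) ∧
        (∀ j, residue (t l j) = deepDigits n l c j) ∧
        IsUnit (t l 0) ∧
        ∀ k, (p : E0Inv p n) * curveLog p n (t l) (k + 1) =
          ∑ i ∈ Finset.range (k + 1), curveLog p n (t l) i *
            algebraMap (E0 p n) (E0Inv p n) (a l (k + 1 - i)) ^ p ^ i) ∧
      ∀ N J : ℕ, ∃ L, ∀ l, L ≤ l →
        (∀ i, a l i - vv p n i ∈ IsLocalRing.maximalIdeal (E0 p n) ^ N) ∧
        ∀ j < J, t l j - (if j = 0 then 1 else 0) ∈ IsLocalRing.maximalIdeal (E0 p n) ^ N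

/-- Completeness of E0 and the automorphisms moving the parameters. -/
def SigmaPin : Prop :=
  ∀ (p n : ℕ) [Fact p.Prime],
    IsAdicComplete (IsLocalRing.maximalIdeal (E0 p n)) (E0 p n) ∧
    ∀ a : ℕ → E0 p n,
      (∀ i, 1 ≤ i → i < n → a i - vv p n i ∈ IsLocalRing.maximalIdeal (E0 p n) ^ 2) →
        ∃ s : E0 p n ≃+* E0 p n, (∀ w, s (constants w) = constants w) ∧
          ∀ i, 1 ≤ i → i < n → s (vv p n i) = a i

end Vale.Agent.P217.B
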