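import Mathlib
import Vale.Agent.P217.B.Pins

/-!
# P217, block B: completeness of E0 and the automorphisms moving the parameters
-/

noncomputable section

namespace Vale.Agent.P217.B

open scoped Classical

namespace SigmaBlock

/-- A power series without constant term lies in the ideal of the variables. -/
theorem mem_span_range_X {σ R : Type} [Fintype σ] [CommRing R] (f : MvPowerSeries σ R)
    (hf : MvPowerSeries.constantCoeff f = 0) :
    f ∈ Ideal.span (Set.range (MvPowerSeries.X : σ → MvPowerSeries σ R)) := by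
  suffices h : ∀ (S : Finset σ) (f : MvPowerSeries σ R),
      (∀ m : σ →₀ ℕ, (∀ i ∈ S, m i = 0) → MvPowerSeries.coeff m f = 0) →
        f ∈ Ideal.span (MvPowerSeries.X '' (S : Set σ)) by
    have := h Finset.univ f fun m hm => by
      obtain rfl : m = 0 := Finsupp.ext fun i => hm i (Finset.mem_univ i)
      rwa [MvPowerSeries.coeff_zero_eq_constantCoeff_apply]
    rwa [Finset.coe_univ, Set.image_univ] at this
  intro S
  induction S using Finset.induction with
  | empty =>
    intro f h
    have : f = 0 := MvPowerSeries.ext fun m => by simpa using h m (by simp)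
    simp [this]
  | @insert i S _ ih =>
    intro f h
    let g : MvPowerSeries σ R := fun m => if m i = 0 then MvPowerSeries.coeff m f else 0
    have hg : ∀ m, MvPowerSeries.coeff m g =
        if m i = 0 then MvPowerSeries.coeff m f else 0 := fun _ => rfl
    have h1 : f - g ∈ Ideal.span {(MvPowerSeries.X i : MvPowerSeries σ R)} := by
      rw [Ideal.mem_span_singleton, MvPowerSeries.X_dvd_iff]
      intro m hm
      rw [map_sub, hg, if_pos hm, sub_self]
    have h2 := ih g fun m hm => by
      rw [hg]
      split_ifs with hmi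
      · exact h m fun j hj => by
          rcases Finset.mem_insert.mp hj with rfl | hj
          · exact hmi
          · exact hm j hj
      · rfl
    rw [Finset.coe_insert, Set.image_insert_eq, Ideal.span_insert]
    have := Submodule.add_mem_sup h1 h2
    rwa [sub_add_cancel] at this

/-- A ring complete for two ideals is complete for their sum. -/
theorem isPrecomplete_sup {R : Type} [CommRing R] {I J : Ideal R} [IsPrecomplete I R]
    [IsPrecomplete J R] : IsPrecomplete (I ⊔ J) R := by
  refine ⟨fun {f} hf => ?_⟩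
  have hf' : ∀ {m k : ℕ}, m ≤ k → f m - f k ∈ (I ⊔ J) ^ m := fun h => by
    simpa [SModEq.sub_mem, smul_eq_mul, Ideal.mul_top] using hf h
  have hd : ∀ i, ∃ a ∈ I ^ i, ∃ b ∈ J ^ i, a + b = f (2 * (i + 1)) - f (2 * i) := fun i => by
    have h := neg_mem (hf' (show 2 * i ≤ 2 * (i + 1) by omega))
    rw [neg_sub, two_mul i] at h
    obtain ⟨a, ha, b, hb, hab⟩ := Submodule.mem_sup.mp (Ideal.sup_pow_add_le_pow_sup_pow h)
    exact ⟨a, ha, b, hb, hab.trans (by rw [two_mul i])⟩
  choose a ha b hb hab using hd
  have hlim : ∀ (K : Ideal R) [IsPrecomplete K R] (c : ℕ → R), (∀ i, c i ∈ K ^ i) →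
      ∃ L, ∀ i, ∑ j ∈ Finset.range i, c j - L ∈ K ^ i := by
    intro K _ c hc
    obtain ⟨L, hL⟩ := IsPrecomplete.prec' (I := K) (fun i => ∑ j ∈ Finset.range i, c j)
      fun {m k} h => by
        rw [SModEq.sub_mem, smul_eq_mul, Ideal.mul_top, ← neg_sub,
          ← Finset.sum_Ico_eq_sub _ h]
        exact neg_mem (sum_mem fun j hj =>
          Ideal.pow_le_pow_right (Finset.mem_Ico.mp hj).1 (hc j))
    exact ⟨L, fun i => by simpa [SModEq.sub_mem, smul_eq_mul, Ideal.mul_top] using hL i⟩
  obtain ⟨A, hA⟩ := hlim I a ha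
  obtain ⟨B, hB⟩ := hlim J b hb
  refine ⟨f 0 + A + B, fun i => ?_⟩
  rw [SModEq.sub_mem, smul_eq_mul, Ideal.mul_top]
  have hsum : f (2 * i) - f 0 = ∑ j ∈ Finset.range i, a j + ∑ j ∈ Finset.range i, b j := by
    rw [← Finset.sum_add_distrib]
    simp only [hab]
    exact (Finset.sum_range_sub (fun k => f (2 * k)) i).symm
  have h1 : f (2 * i) - (f 0 + A + B) ∈ (I ⊔ J) ^ i := by
    have he : f (2 * i) - (f 0 + A + B) =
        (∑ j ∈ Finset.range i, a j - A) + (∑ j ∈ Finset.range i, b j - B) := by
      linear_combination hsum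
    rw [he]
    exact add_mem (Ideal.pow_right_mono le_sup_left i (hA i))
      (Ideal.pow_right_mono le_sup_right i (hB i))
  simpa using add_mem (hf' (show i ≤ 2 * i by omega)) h1

/-- Power series over a ring complete for the ideal of `r` are complete for the ideal of `r`. -/
theorem isPrecomplete_mvPowerSeries {σ R : Type} [CommRing R] (r : R)
    [IsPrecomplete (Ideal.span {r}) R] :
    IsPrecomplete (Ideal.span {MvPowerSeries.C (σ := σ) r}) (MvPowerSeries σ R) := by
  refine ⟨fun {f} hf => ?_⟩
  have hc : ∀ a : σ →₀ ℕ, ∃ L, ∀ i, r ^ i ∣ MvPowerSeries.coeff a (f i) - L := fun a => by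
    obtain ⟨L, hL⟩ := IsPrecomplete.prec' (I := Ideal.span {r})
      (fun i => MvPowerSeries.coeff a (f i)) fun {m k} h => by
        have hmk := hf h
        rw [SModEq.sub_mem, smul_eq_mul, Ideal.mul_top, Ideal.span_singleton_pow,
          Ideal.mem_span_singleton] at hmk ⊢
        obtain ⟨g, hg⟩ := hmk
        exact ⟨MvPowerSeries.coeff a g, by
          rw [← map_sub, hg, ← map_pow, MvPowerSeries.coeff_C_mul]⟩
    exact ⟨L, fun i => by
      simpa [SModEq.sub_mem, smul_eq_mul, Ideal.mul_top, Ideal.span_singleton_pow,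
        Ideal.mem_span_singleton] using hL i⟩
  choose L hL using hc
  let L' : MvPowerSeries σ R := L
  refine ⟨L', fun i => ?_⟩
  rw [SModEq.sub_mem, smul_eq_mul, Ideal.mul_top, Ideal.span_singleton_pow,
    Ideal.mem_span_singleton]
  choose g hg using fun a => hL a i
  let g' : MvPowerSeries σ R := g
  refine ⟨g', MvPowerSeries.ext fun a => ?_⟩
  rw [map_sub, ← map_pow, MvPowerSeries.coeff_C_mul]
  exact hg a

variable {p n : ℕ} [Fact p.Prime]

theorem maximal_eq :
    IsLocalRing.maximalIdeal (E0 p n) =
      Ideal.span {MvPowerSeries.C (p : WittVector p (GaloisField p n))} ⊔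
        Ideal.span (Set.range (MvPowerSeries.X : Fin (n - 1) → E0 p n)) := by
  have hmem : ∀ a : E0 p n, a ∈ IsLocalRing.maximalIdeal (E0 p n) ↔ residue a = 0 := by
    intro a
    rw [IsLocalRing.mem_maximalIdeal, mem_nonunits_iff, MvPowerSeries.isUnit_iff_constantCoeff]
    refine ⟨fun h => ?_, fun h hu => ?_⟩
    · by_contra hne
      exact h (WittVector.isUnit_of_coeff_zero_ne_zero _ hne)
    · exact not_isUnit_zero (h ▸ hu.map WittVector.constantCoeff)
  refine le_antisymm (fun a ha => ?_) (sup_le ?_ ?_)
  · have h0 : WittVector.constantCoeff (MvPowerSeries.constantCoeff a) = 0 := (hmem a).mp ha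
    have hd : MvPowerSeries.constantCoeff a ∈
        Ideal.span {(p : WittVector p (GaloisField p n))} := by
      rw [← WittVector.ker_constantCoeff]
      exact h0
    obtain ⟨c, hc⟩ := Ideal.mem_span_singleton.mp hd
    have h1 : MvPowerSeries.C (MvPowerSeries.constantCoeff a) ∈
        Ideal.span {MvPowerSeries.C (σ := Fin (n - 1)) (p : WittVector p (GaloisField p n))} :=
      Ideal.mem_span_singleton.mpr ⟨MvPowerSeries.C c, by rw [hc, map_mul]⟩
    have h2 := mem_span_range_X (a - MvPowerSeries.C (MvPowerSeries.constantCoeff a)) (by simp)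
    simpa using Submodule.add_mem_sup h1 h2
  · rw [Ideal.span_singleton_le_iff_mem, hmem]
    simp [residue, CharP.cast_eq_zero]
  · rw [Ideal.span_le]
    rintro _ ⟨i, rfl⟩
    exact (hmem _).mpr (by simp [residue])

theorem complete_E0 : IsAdicComplete (IsLocalRing.maximalIdeal (E0 p n)) (E0 p n) := by
  have := isPrecomplete_mvPowerSeries (σ := Fin (n - 1)) (p : WittVector p (GaloisField p n))
  have : IsPrecomplete (IsLocalRing.maximalIdeal (E0 p n)) (E0 p n) :=
    maximal_eq (p := p) (n := n) ▸ isPrecomplete_sup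
  exact { }

/-- Evaluation at a point of the maximal ideal. -/
theorem exists_eval (a : Fin (n - 1) → E0 p n)
    (ha : ∀ i, a i ∈ IsLocalRing.maximalIdeal (E0 p n)) :
    ∃ s : E0 p n →+* E0 p n, (∀ w, s (constants w) = constants w) ∧
      ∀ i, s (MvPowerSeries.X i) = a i := by
  let : WithIdeal (E0 p n) := ⟨IsLocalRing.maximalIdeal (E0 p n)⟩
  obtain ⟨_, _⟩ := (IsAdic.isAdicComplete_iff (R := E0 p n)
    (I := IsLocalRing.maximalIdeal (E0 p n)) rfl).mp complete_E0
  let : UniformSpace (WittVector p (GaloisField p n)) := ⊥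
  have : DiscreteUniformity (WittVector p (GaloisField p n)) := ⟨rfl⟩
  have hev : MvPowerSeries.HasEval a :=
    { hpow := fun i => WithIdeal.isTopologicallyNilpotent_of_mem (ha i)
      tendsto_zero := by simp [Filter.cofinite_eq_bot] }
  refine ⟨MvPowerSeries.eval₂Hom (φ := constants) continuous_of_discreteTopology hev,
    fun w => ?_, fun i => ?_⟩
  · simp [MvPowerSeries.coe_eval₂Hom, constants]
  · simp [MvPowerSeries.coe_eval₂Hom]

variable {s : E0 p n →+* E0 p n}

theorem bijective_of_congr (hc : ∀ w, s (constants w) = constants w)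
    (hX : ∀ i, s (MvPowerSeries.X i) - MvPowerSeries.X i ∈
      IsLocalRing.maximalIdeal (E0 p n) ^ 2) : Function.Bijective s := by
  set m := IsLocalRing.maximalIdeal (E0 p n) with hm
  have hm2 : m ^ 2 ≤ m := Ideal.pow_le_self (by omega)
  have hXm : ∀ i, (MvPowerSeries.X i : E0 p n) ∈ m := fun i => by
    rw [hm, maximal_eq]
    exact Submodule.mem_sup_right (Ideal.subset_span ⟨i, rfl⟩)
  have hgen : ∀ P : E0 p n → Prop,
      (∀ w : WittVector p (GaloisField p n), P (constants (p * w))) →
      (∀ i, P (MvPowerSeries.X i)) → ∀ x ∈ Set.range (fun w : WittVector p (GaloisField p n) => constants ((p : WittVector p (GaloisField p n)) * w)) ∪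
        Set.range (MvPowerSeries.X : Fin (n - 1) → E0 p n), P x := by
    rintro P h1 h2 x (⟨w, rfl⟩ | ⟨i, rfl⟩)
    · exact h1 w
    · exact h2 i
  have hspan : m = Ideal.span (Set.range (fun w : WittVector p (GaloisField p n) => constants ((p : WittVector p (GaloisField p n)) * w)) ∪
      Set.range (MvPowerSeries.X : Fin (n - 1) → E0 p n)) := by
    rw [hm, maximal_eq, Ideal.span_union]
    refine congrArg (· ⊔ _) (le_antisymm ?_ ?_)
    · rw [Ideal.span_singleton_le_iff_mem]
      exact Ideal.subset_span ⟨1, by simp [constants]⟩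
    · rw [Ideal.span_le]
      rintro _ ⟨w, rfl⟩
      exact Ideal.mem_span_singleton.mpr ⟨MvPowerSeries.C w, by simp [constants]⟩
  have hmap : ∀ x ∈ m, s x ∈ m := by
    have : m ≤ m.comap s := by
      conv_lhs => rw [hspan]
      refine Ideal.span_le.mpr (hgen (fun x => x ∈ (m.comap s : Ideal (E0 p n))) ?_ ?_)
      · intro w
        rw [Ideal.mem_comap, hc, hspan]
        exact Ideal.subset_span (Or.inl ⟨w, rfl⟩)
      · intro i
        rw [Ideal.mem_comap]
        simpa using m.add_mem (hm2 (hX i)) (hXm i)
    exact fun x hx => this hx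
  have h0 : ∀ x, s x - x ∈ m := fun x => by
    have hx : x - constants (MvPowerSeries.constantCoeff x) ∈ m := by
      rw [hm, maximal_eq]
      exact Submodule.mem_sup_right (mem_span_range_X _ (by simp [constants]))
    have := m.sub_mem (hmap _ hx) hx
    rwa [map_sub, hc, sub_sub_sub_cancel_right] at this
  have h1 : ∀ x ∈ m, s x - x ∈ m ^ 2 := by
    intro x hx
    rw [hspan] at hx
    induction hx using Submodule.span_induction with
    | mem x hx => exact hgen (fun x => s x - x ∈ m ^ 2) (fun w => by simp [hc]) hX x hx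
    | zero => simp
    | add x y _ _ hx hy =>
      rw [map_add, add_sub_add_comm]
      exact add_mem hx hy
    | smul r x hxm hx =>
      rw [smul_eq_mul, map_mul,
        show s r * s x - r * x = s r * (s x - x) + (s r - r) * x by ring, pow_two]
      exact add_mem (Ideal.mul_mem_left _ _ (pow_two m ▸ hx))
        (Ideal.mul_mem_mul (h0 r) (hspan ▸ hxm))
  have hstep : ∀ k x, x ∈ m ^ k → s x - x ∈ m ^ (k + 1) ∧ s x ∈ m ^ k := by
    intro k
    induction k with
    | zero => exact fun x _ => ⟨by simpa using h0 x, by simp⟩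
    | succ k ih =>
      intro x hx
      suffices h : s x - x ∈ m ^ (k + 1 + 1) from
        ⟨h, by simpa using add_mem (Ideal.pow_le_pow_right (Nat.le_succ _) h) hx⟩
      rw [pow_succ'] at hx
      induction hx using Submodule.mul_induction_on' with
      | mem_mul_mem g hg y hy =>
        rw [map_mul, show s g * s y - g * y = (s g - g) * s y + g * (s y - y) by ring]
        refine add_mem ?_ ?_
        · rw [show k + 1 + 1 = 2 + k by omega, pow_add]
          exact Ideal.mul_mem_mul (h1 g hg) (ih y hy).2
        · rw [pow_succ']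
          exact Ideal.mul_mem_mul hg (ih y hy).1
      | add x _ y _ hx hy =>
        rw [map_add, add_sub_add_comm]
        exact add_mem hx hy
  have hC := complete_E0 (p := p) (n := n)
  refine ⟨(injective_iff_map_eq_zero s).mpr fun x hx => ?_, fun y => ?_⟩
  · have : ∀ k, x ∈ m ^ k := by
      intro k
      induction k with
      | zero => simp
      | succ k ih => simpa [hx] using (hstep k x ih).1
    exact IsHausdorff.haus' (I := m) x fun k => by
      simpa [SModEq.zero, smul_eq_mul, Ideal.mul_top] using this k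
  · let seq : ℕ → E0 p n := fun k => Nat.rec 0 (fun _ z => z + (y - s z)) k
    have hseq : ∀ k, seq (k + 1) = seq k + (y - s (seq k)) := fun _ => rfl
    have hy : ∀ k, y - s (seq k) ∈ m ^ k := by
      intro k
      induction k with
      | zero => simp
      | succ k ih =>
        have := neg_mem (hstep k _ ih).1
        rw [hseq, map_add]
        rw [neg_sub] at this
        rwa [sub_add_eq_sub_sub]
    obtain ⟨L, hL⟩ := IsPrecomplete.prec' (I := m) seq fun {i k} hik => by
      rw [SModEq.sub_mem, smul_eq_mul, Ideal.mul_top]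
      induction k, hik using Nat.le_induction with
      | base => simp
      | succ k hik ih =>
        rw [hseq, sub_add_eq_sub_sub]
        exact sub_mem ih (Ideal.pow_le_pow_right hik (hy k))
    refine ⟨L, (sub_eq_zero.mp (IsHausdorff.haus' (I := m) _ fun k => ?_)).symm⟩
    rw [SModEq.zero, smul_eq_mul, Ideal.mul_top]
    have hk : seq k - L ∈ m ^ k := by
      simpa [SModEq.sub_mem, smul_eq_mul, Ideal.mul_top] using hL k
    have := add_mem (hy k) (hstep k _ hk).2
    rwa [map_sub, sub_add_sub_cancel] at this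

end SigmaBlock

open SigmaBlock in
theorem sigmaPin : SigmaPin := by
  intro p n _
  refine ⟨complete_E0, fun a ha => ?_⟩
  have hvv : ∀ i (h1 : 1 ≤ i) (h2 : i < n),
      vv p n i = MvPowerSeries.X (⟨i - 1, by omega⟩ : Fin (n - 1)) :=
    fun i h1 h2 => dif_pos ⟨h1, h2⟩
  have hd : ∀ j : Fin (n - 1), a (j + 1) - MvPowerSeries.X j ∈
      IsLocalRing.maximalIdeal (E0 p n) ^ 2 := fun j => by
    have := ha (j + 1) (by omega) (by omega)
    rw [hvv _ (by omega) (by omega)] at this
    convert this using 3
    ext; simp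
  obtain ⟨s, hsc, hsX⟩ := exists_eval (fun j : Fin (n - 1) => a (j + 1)) fun j => by
    have hX : (MvPowerSeries.X j : E0 p n) ∈ IsLocalRing.maximalIdeal (E0 p n) := by
      rw [maximal_eq]
      exact Submodule.mem_sup_right (Ideal.subset_span ⟨j, rfl⟩)
    simpa using add_mem (Ideal.pow_le_self (by omega) (hd j)) hX
  refine ⟨RingEquiv.ofBijective s (bijective_of_congr hsc fun i => by rw [hsX]; exact hd i),
    hsc, fun i h1 h2 => ?_⟩
  show s (vv p n i) = a i
  rw [hvv i h1 h2, hsX]
  show a (i - 1 + 1) = a i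
  rw [Nat.sub_add_cancel h1]

end Vale.Agent.P217.B
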