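import Vale.Agent.P217.B.Pins
import Vale.Agent.P217.A.Coeff

/-!
# P217, block B: the deep symmetries from the parameters and the digits
-/

noncomputable section

namespace Vale.Agent.P217.B

open Finset

theorem subst_agree {τ K : Type*} [CommRing K] {d : ℕ} {u u' : MvPowerSeries τ K}
    (h0 : u.constantCoeff = 0) (h0' : u'.constantCoeff = 0) (h : FE.AgreeUpTo d u u')
    (g : PowerSeries K) : FE.AgreeUpTo d (PowerSeries.subst u g) (PowerSeries.subst u' g) := by
  intro m hm
  rw [PowerSeries.coeff_subst (PowerSeries.HasSubst.of_constantCoeff_zero h0),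
    PowerSeries.coeff_subst (PowerSeries.HasSubst.of_constantCoeff_zero h0')]
  exact finsum_congr fun e => by rw [h.pow e m hm]

theorem constantCoeff_map_zero {R S : Type} [CommRing R] [CommRing S] (g : R →+* S)
    {a : PowerSeries R} (ha : PowerSeries.constantCoeff a = 0) :
    PowerSeries.constantCoeff (PowerSeries.map g a) = 0 := by
  rw [← PowerSeries.coeff_zero_eq_constantCoeff_apply, PowerSeries.coeff_map,
    PowerSeries.coeff_zero_eq_constantCoeff_apply, ha, map_zero]

theorem seriesSum_all_zero {R : Type} [CommRing R] (G : FormalGroup R) :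
    ∀ {L : List (PowerSeries R)}, (∀ b ∈ L, b = 0) → seriesSum G L = 0
  | [], _ => rfl
  | b :: bs, h => by
    show MvPowerSeries.subst ![b, seriesSum G bs] G.toPowerSeries = 0
    rw [seriesSum_all_zero G fun c hc => h c (List.mem_cons_of_mem _ hc),
      h b (List.mem_cons_self ..)]
    exact G.add_zero (PowerSeries.HasSubst.of_constantCoeff_zero' (map_zero _))

variable {p n : ℕ} [Fact p.Prime]

/-- The terms of a digit series. -/
def digitList (p : ℕ) {R : Type} [CommRing R] (t : ℕ → R) (M : ℕ) : List (PowerSeries R) :=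
  (List.range M).map fun j => PowerSeries.C (t j) * PowerSeries.X ^ p ^ j

theorem constantCoeff_digitList {R : Type} [CommRing R] (t : ℕ → R) (M : ℕ) :
    ∀ a ∈ digitList p t M, PowerSeries.constantCoeff a = 0 := fun a ha => by
  obtain ⟨j, -, rfl⟩ := List.mem_map.1 ha
  rw [map_mul, map_pow, PowerSeries.constantCoeff_X,
    zero_pow (pow_ne_zero _ (Fact.out : p.Prime).ne_zero), mul_zero]

omit [Fact p.Prime] in
theorem coeff_digitSeries {R : Type} [CommRing R] (G : FormalGroup R) (t : ℕ → R) (N : ℕ) :
    PowerSeries.coeff N (digitSeries p G t) =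
      PowerSeries.coeff N (seriesSum G (digitList p t (N + 1))) :=
  PowerSeries.coeff_mk _ _

theorem constantCoeff_digitSeries {R : Type} [CommRing R] (G : FormalGroup R) (t : ℕ → R) :
    PowerSeries.constantCoeff (digitSeries p G t) = 0 := by
  rw [← PowerSeries.coeff_zero_eq_constantCoeff_apply, coeff_digitSeries,
    PowerSeries.coeff_zero_eq_constantCoeff_apply,
    seriesSum_constantCoeff G (constantCoeff_digitList t 1)]

theorem map_digitSeries {R S : Type} [CommRing R] [CommRing S] (g : R →+* S) (G : FormalGroup R)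
    (t : ℕ → R) :
    PowerSeries.map g (digitSeries p G t) = digitSeries p (G.map g) fun j => g (t j) := by
  ext N
  rw [PowerSeries.coeff_map, coeff_digitSeries, coeff_digitSeries, ← PowerSeries.coeff_map,
    map_seriesSum g G (constantCoeff_digitList t _)]
  refine congrArg (fun L => PowerSeries.coeff N (seriesSum (G.map g) L)) ?_
  rw [digitList, digitList, List.map_map]
  refine List.map_congr_left fun j _ => ?_
  rw [Function.comp_apply, map_mul, PowerSeries.map_C, map_pow, PowerSeries.map_X]

theorem coeff_log_digitList (t : ℕ → E0 p n) {F : FormalGroup (E0 p n)}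
    (hF : IsUniversalDeformation p n F) {N M : ℕ} (hNM : N < M) :
    PowerSeries.coeff N
      (PowerSeries.subst (PowerSeries.map (ltData p n).ι (seriesSum F (digitList p t M)))
        (ltData p n).f : PowerSeries (E0Inv p n)) =
      PowerSeries.coeff N (FE.pser p (curveLog p n t)) := by
  have hp : 1 < p := (Fact.out : p.Prime).one_lt
  rw [log_seriesSum (ltData p n) hF (constantCoeff_digitList t M), digitList, List.map_map]
  have hsum : ∀ (L : List ℕ) (g : ℕ → PowerSeries (E0Inv p n)),
      PowerSeries.coeff N (L.map g).sum = (L.map fun i => PowerSeries.coeff N (g i)).sum :=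
    fun L g => by
      induction L with
      | nil => simp
      | cons a as ih => simp [ih]
  have hq : ∀ i, PowerSeries.coeff N
      (PowerSeries.subst (PowerSeries.map (ltData p n).ι
          (PowerSeries.C (t i) * PowerSeries.X ^ p ^ i))
        (ltData p n).f : PowerSeries (E0Inv p n)) =
      ∑ j ∈ range (N + 1), if N = p ^ (i + j) then
        logCoeff p n j * algebraMap (E0 p n) (E0Inv p n) (t i) ^ p ^ j else 0 := by
    intro i
    have h0 : PowerSeries.constantCoeff (PowerSeries.map (ltData p n).ι
        (PowerSeries.C (t i) * PowerSeries.X ^ p ^ i)) = 0 :=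
      constantCoeff_map_zero _ (by simp [(Fact.out : p.Prime).ne_zero])
    show MvPowerSeries.coeff (Finsupp.single () N) _ = _
    rw [FE.Data.f, FE.coeff_subst_pser hp _ h0 _ (Finsupp.degree_single () N).le]
    refine sum_congr rfl fun j _ => ?_
    show _ * PowerSeries.coeff N (PowerSeries.map (ltData p n).ι _ ^ p ^ j) = _
    rw [map_mul, PowerSeries.map_C, map_pow (PowerSeries.map (ltData p n).ι), PowerSeries.map_X,
      mul_pow, ← map_pow (PowerSeries.C (R := E0Inv p n)), ← pow_mul, ← pow_add,
      PowerSeries.coeff_C_mul, PowerSeries.coeff_X_pow]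
    split_ifs <;> simp [ltData]
  simp only [Function.comp_def]
  rw [hsum, List.map_congr_left fun i _ => hq i, ← List.sum_toFinset _ List.nodup_range,
    List.toFinset_range, FE.pser, PowerSeries.coeff_mk]
  by_cases hN : N = p ^ Nat.log p N
  · obtain ⟨e, he⟩ : ∃ e, Nat.log p N = e := ⟨_, rfl⟩
    rw [he] at hN
    subst hN
    simp only [Nat.log_pow hp, if_true, (Nat.pow_right_injective hp).eq_iff]
    have hlt := Nat.lt_pow_self (n := e) hp
    rw [curveLog, ← sum_subset (s₁ := range (e + 1)) (range_subset_range.2 (by omega))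
      fun i _ hi => sum_eq_zero fun j _ => if_neg ?_]
    · refine sum_congr rfl fun i hi => ?_
      rw [mem_range] at hi
      rw [sum_eq_single (e - i)]
      · rw [if_pos (by omega)]
      · intro b _ hb; rw [if_neg (by omega)]
      · intro hb; exact absurd (mem_range.2 (by omega)) hb
    · rw [mem_range] at hi
      omega
  · rw [if_neg hN]
    refine sum_eq_zero fun i _ => sum_eq_zero fun j _ => if_neg fun h => hN ?_
    subst h
    rw [Nat.log_pow hp]

theorem log_digitSeries (t : ℕ → E0 p n) {F : FormalGroup (E0 p n)}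
    (hF : IsUniversalDeformation p n F) :
    (PowerSeries.subst (PowerSeries.map (ltData p n).ι (digitSeries p F t)) (ltData p n).f :
      PowerSeries (E0Inv p n)) = FE.pser p (curveLog p n t) := by
  have hp : 1 < p := (Fact.out : p.Prime).one_lt
  set D := ltData p n
  have hf0 := D.constantCoeff_f
  have hf1 : IsUnit (PowerSeries.coeff 1 D.f) := D.coeff_one_f hp ▸ isUnit_one
  set P : PowerSeries (E0Inv p n) := FE.pser p (curveLog p n t)
  have hP0 : PowerSeries.constantCoeff P = 0 := by
    rw [← PowerSeries.coeff_zero_eq_constantCoeff_apply]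
    simp [P, FE.pser]
  have hPs := PowerSeries.HasSubst.of_constantCoeff_zero' hP0
  have key : PowerSeries.map D.ι (digitSeries p F t) =
      PowerSeries.subst P (D.f.substInvOfIsUnit hf1) := by
    refine PowerSeries.ext fun N => ?_
    rw [PowerSeries.coeff_map, coeff_digitSeries, ← PowerSeries.coeff_map]
    set Y := PowerSeries.map D.ι (seriesSum F (digitList p t (N + 1)))
    have hY0 : PowerSeries.constantCoeff Y = 0 :=
      constantCoeff_map_zero _ (seriesSum_constantCoeff F (constantCoeff_digitList t _))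
    have hYs := PowerSeries.HasSubst.of_constantCoeff_zero' hY0
    have hfY0 : PowerSeries.constantCoeff (PowerSeries.subst Y D.f : PowerSeries (E0Inv p n)) = 0 :=
      PowerSeries.constantCoeff_subst_eq_zero hY0 _ hf0
    have hag : FE.AgreeUpTo N (PowerSeries.subst Y D.f : PowerSeries (E0Inv p n)) P := fun m hm => by
      obtain ⟨k, rfl⟩ : ∃ k, m = Finsupp.single () k := ⟨m (), Finsupp.ext fun _ => by simp⟩
      rw [Finsupp.degree_single] at hm
      exact coeff_log_digitList t hF (by omega)
    have hback : PowerSeries.subst (PowerSeries.subst Y D.f : PowerSeries (E0Inv p n))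
        (D.f.substInvOfIsUnit hf1) = Y := by
      rw [← PowerSeries.subst_comp_subst_apply (PowerSeries.HasSubst.of_constantCoeff_zero' hf0)
        hYs, PowerSeries.subst_substInvOfIsUnit_left _ hf0, PowerSeries.subst_X hYs]
    conv_lhs => rw [← hback]
    exact subst_agree hfY0 hP0 hag _ (Finsupp.single () N) (Finsupp.degree_single () N).le
  rw [key, ← PowerSeries.subst_comp_subst_apply (PowerSeries.HasSubst.substInvOfIsUnit _ hf1) hPs,
    PowerSeries.subst_substInvOfIsUnit_right _ hf0, PowerSeries.subst_X hPs]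

/-- The extension of an automorphism to the ring with p inverted. -/
def autInv (s : E0 p n ≃+* E0 p n) : E0Inv p n →+* E0Inv p n :=
  IsLocalization.Away.lift (p : E0 p n)
    (g := (algebraMap (E0 p n) (E0Inv p n)).comp s.toRingHom)
    (by
      rw [RingHom.comp_apply, map_natCast]
      exact IsLocalization.Away.algebraMap_isUnit (p : E0 p n))

theorem autInv_algebraMap (s : E0 p n ≃+* E0 p n) (b : E0 p n) :
    autInv s (algebraMap _ _ b) = algebraMap _ _ (s b) :=
  IsLocalization.Away.lift_eq _ _ b

theorem curveLog_eq {a t : ℕ → E0 p n} {s : E0 p n ≃+* E0 p n} (hs : ∀ i, s (vv p n i) = a i)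
    (hrec : ∀ k, (p : E0Inv p n) * curveLog p n t (k + 1) =
      ∑ i ∈ range (k + 1), curveLog p n t i *
        algebraMap (E0 p n) (E0Inv p n) (a (k + 1 - i)) ^ p ^ i) (k : ℕ) :
    curveLog p n t k = algebraMap _ _ (t 0) * autInv s (logCoeff p n k) := by
  induction k using Nat.strong_induction_on with
  | _ k ih =>
    cases k with
    | zero => simp [curveLog, logCoeff.eq_1]
    | succ k =>
      refine (ltData p n).cancel ?_
      rw [hrec, mul_left_comm (p : E0Inv p n), ← map_natCast (autInv s) p, ← map_mul,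
        show (p : E0Inv p n) * logCoeff p n (k + 1) = _ from (ltData p n).M_succ k, map_sum,
        mul_sum]
      refine sum_congr rfl fun i hi => ?_
      rw [mem_range] at hi
      rw [ih i (by omega), map_mul, map_pow]
      show _ = _ * (autInv s (logCoeff p n i) *
        autInv s (algebraMap _ _ (vv p n (k + 1 - i))) ^ p ^ i)
      rw [autInv_algebraMap, hs]
      ring

theorem isSymmetryWith_digitSeries {F : FormalGroup (E0 p n)} (hF : IsUniversalDeformation p n F)
    {a t : ℕ → E0 p n} {s : E0 p n ≃+* E0 p n} (hs : ∀ i, s (vv p n i) = a i)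
    (ht : IsUnit (t 0))
    (hrec : ∀ k, (p : E0Inv p n) * curveLog p n t (k + 1) =
      ∑ i ∈ range (k + 1), curveLog p n t i *
        algebraMap (E0 p n) (E0Inv p n) (a (k + 1 - i)) ^ p ^ i) :
    IsSymmetryWith F s (digitSeries p F t) := by
  have hp : 1 < p := (Fact.out : p.Prime).one_lt
  set D := ltData p n with hD
  set ψ := digitSeries p F t with hψ
  have hψ0 : PowerSeries.constantCoeff ψ = 0 := constantCoeff_digitSeries F t
  have hι0 : PowerSeries.constantCoeff (PowerSeries.map D.ι ψ) = 0 := constantCoeff_map_zero _ hψ0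
  have hlog : (PowerSeries.subst (PowerSeries.map D.ι ψ) D.f : PowerSeries (E0Inv p n)) =
      D.ι (t 0) • PowerSeries.map (autInv s) D.f := by
    rw [log_digitSeries t hF, FE.Data.f, FE.map_pser]
    ext N
    rw [PowerSeries.coeff_smul, FE.pser, FE.pser, PowerSeries.coeff_mk, PowerSeries.coeff_mk]
    split_ifs
    · rw [smul_eq_mul]; exact curveLog_eq hs hrec _
    · rw [smul_zero]
  have hψ1 : PowerSeries.coeff 1 ψ = t 0 := D.inj (by
    have h1 := D.coeff_linear hp hι0 (m := Finsupp.single () 1) (Finsupp.degree_single () 1)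
    rw [hlog] at h1
    change PowerSeries.coeff 1 (_ • PowerSeries.map (autInv s) D.f) =
      PowerSeries.coeff 1 (PowerSeries.map D.ι ψ) at h1
    rw [PowerSeries.coeff_smul, PowerSeries.coeff_map, D.coeff_one_f hp, map_one, smul_eq_mul,
      mul_one, PowerSeries.coeff_map] at h1
    exact h1.symm)
  have hψu : IsUnit (PowerSeries.coeff 1 ψ) := hψ1 ▸ ht
  set sF := F.map s.toRingHom with hsF
  have hX : ∀ i : Fin 2,
      PowerSeries.HasSubst (MvPowerSeries.X i : MvPowerSeries (Fin 2) (E0 p n)) :=
    fun i => PowerSeries.HasSubst.of_constantCoeff_zero (MvPowerSeries.constantCoeff_X i)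
  have hXK : ∀ i : Fin 2,
      PowerSeries.HasSubst (MvPowerSeries.X i : MvPowerSeries (Fin 2) (E0Inv p n)) :=
    fun i => PowerSeries.HasSubst.of_constantCoeff_zero (MvPowerSeries.constantCoeff_X i)
  have hsFs : PowerSeries.HasSubst sF.toPowerSeries :=
    PowerSeries.HasSubst.of_constantCoeff_zero sF.zero_constantCoeff
  have hψX : ∀ i : Fin 2, (PowerSeries.subst
      (MvPowerSeries.X i : MvPowerSeries (Fin 2) (E0 p n)) ψ).constantCoeff = 0 := fun i =>
    PowerSeries.constantCoeff_subst_eq_zero (MvPowerSeries.constantCoeff_X i) _ hψ0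
  have hψv : MvPowerSeries.HasSubst
      ![PowerSeries.subst (MvPowerSeries.X 0 : MvPowerSeries (Fin 2) (E0 p n)) ψ,
        PowerSeries.subst (MvPowerSeries.X 1 : MvPowerSeries (Fin 2) (E0 p n)) ψ] :=
    MvPowerSeries.hasSubst_of_constantCoeff_zero fun i => by
      fin_cases i
      · exact hψX 0
      · exact hψX 1
  have hhom : PowerSeries.subst sF.toPowerSeries ψ = MvPowerSeries.subst
      ![PowerSeries.subst (MvPowerSeries.X 0 : MvPowerSeries (Fin 2) (E0 p n)) ψ,
        PowerSeries.subst (MvPowerSeries.X 1 : MvPowerSeries (Fin 2) (E0 p n)) ψ]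
      F.toPowerSeries := by
    refine MvPowerSeries.ext fun m => D.inj ?_
    rw [← MvPowerSeries.coeff_map, ← MvPowerSeries.coeff_map]
    refine congrArg (MvPowerSeries.coeff m) ?_
    rw [PowerSeries.map_subst hsFs, MvPowerSeries.map_subst hψv]
    have ev : (fun i => MvPowerSeries.map D.ι
        (![PowerSeries.subst (MvPowerSeries.X 0 : MvPowerSeries (Fin 2) (E0 p n)) ψ,
          PowerSeries.subst (MvPowerSeries.X 1 : MvPowerSeries (Fin 2) (E0 p n)) ψ] i)) =
        ![PowerSeries.subst (MvPowerSeries.X 0 : MvPowerSeries (Fin 2) (E0Inv p n))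
            (PowerSeries.map D.ι ψ),
          PowerSeries.subst (MvPowerSeries.X 1 : MvPowerSeries (Fin 2) (E0Inv p n))
            (PowerSeries.map D.ι ψ)] := by
      funext i
      fin_cases i <;>
        simp [PowerSeries.map_subst (hX _), MvPowerSeries.map_X]
    rw [ev]
    have hιs := PowerSeries.HasSubst.of_constantCoeff_zero' hι0
    have hψXK : ∀ i : Fin 2, (PowerSeries.subst
        (MvPowerSeries.X i : MvPowerSeries (Fin 2) (E0Inv p n))
          (PowerSeries.map D.ι ψ)).constantCoeff = 0 := fun i =>
      PowerSeries.constantCoeff_subst_eq_zero (MvPowerSeries.constantCoeff_X i) _ hι0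
    have hmapF : MvPowerSeries.map D.ι F.toPowerSeries = (F.map D.ι).toPowerSeries := rfl
    set G := MvPowerSeries.map D.ι sF.toPowerSeries with hG
    have hG0 : G.constantCoeff = 0 := (sF.map D.ι).zero_constantCoeff
    have hGs := PowerSeries.HasSubst.of_constantCoeff_zero hG0
    have hGeq : G = MvPowerSeries.map (autInv s) (F.map D.ι).toPowerSeries := by
      refine MvPowerSeries.ext fun m => ?_
      simp only [hG, hsF, FormalGroup.map_toPowerSeries, MvPowerSeries.coeff_map]
      exact (autInv_algebraMap s _).symm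
    refine FE.subst_injective D.constantCoeff_f (D.coeff_one_f hp ▸ isUnit_one)
      (PowerSeries.constantCoeff_subst_eq_zero hG0 _ hι0) ?_ ?_
    · exact MvPowerSeries.constantCoeff_subst_eq_zero
        (MvPowerSeries.hasSubst_of_constantCoeff_zero fun i => by
          fin_cases i
          · exact hψXK 0
          · exact hψXK 1)
        (fun i => by
          fin_cases i
          · exact hψXK 0
          · exact hψXK 1) (F.map D.ι).zero_constantCoeff
    rw [hmapF, FE.log_add (f := D.f) (F.map D.ι).zero_constantCoeff hF (hψXK 0) (hψXK 1),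
      ← PowerSeries.subst_comp_subst_apply hιs hGs,
      ← PowerSeries.subst_comp_subst_apply hιs (hXK 0),
      ← PowerSeries.subst_comp_subst_apply hιs (hXK 1), hlog, PowerSeries.subst_smul hGs,
      PowerSeries.subst_smul (hXK 0), PowerSeries.subst_smul (hXK 1), ← smul_add, hGeq,
      ← PowerSeries.map_subst
        (PowerSeries.HasSubst.of_constantCoeff_zero (F.map D.ι).zero_constantCoeff),
      show PowerSeries.subst (F.map D.ι).toPowerSeries D.f = _ from hF, map_add,
      PowerSeries.map_subst (hXK 0), PowerSeries.map_subst (hXK 1), MvPowerSeries.map_X,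
      MvPowerSeries.map_X]
    rfl
  refine ⟨?_, hψ0, hψu, hhom⟩
  set φ := ψ.substInvOfIsUnit hψu with hφ
  have hφ0 : PowerSeries.constantCoeff φ = 0 := PowerSeries.constantCoeff_substInvOfIsUnit _ hψu
  have hφs := PowerSeries.HasSubst.substInvOfIsUnit ψ hψu
  have hψs := PowerSeries.HasSubst.of_constantCoeff_zero' hψ0
  refine ⟨φ, hφ0, ?_, ?_⟩
  · rw [hφ]; simp
  have hFs : PowerSeries.HasSubst F.toPowerSeries :=
    PowerSeries.HasSubst.of_constantCoeff_zero F.zero_constantCoeff
  have hφX : ∀ i : Fin 2, (PowerSeries.subst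
      (MvPowerSeries.X i : MvPowerSeries (Fin 2) (E0 p n)) φ).constantCoeff = 0 := fun i =>
    PowerSeries.constantCoeff_subst_eq_zero (MvPowerSeries.constantCoeff_X i) _ hφ0
  set w : Fin 2 → MvPowerSeries (Fin 2) (E0 p n) :=
    ![PowerSeries.subst (MvPowerSeries.X 0 : MvPowerSeries (Fin 2) (E0 p n)) φ,
      PowerSeries.subst (MvPowerSeries.X 1 : MvPowerSeries (Fin 2) (E0 p n)) φ] with hw
  have hw0 : ∀ i, (w i).constantCoeff = 0 := fun i => by
    fin_cases i
    · exact hφX 0
    · exact hφX 1
  have hws : MvPowerSeries.HasSubst w := MvPowerSeries.hasSubst_of_constantCoeff_zero hw0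
  have hS0 : (MvPowerSeries.subst w sF.toPowerSeries).constantCoeff = 0 :=
    MvPowerSeries.constantCoeff_subst_eq_zero hws hw0 sF.zero_constantCoeff
  refine FE.subst_injective hψ0 hψu
    (PowerSeries.constantCoeff_subst_eq_zero F.zero_constantCoeff _ hφ0) hS0 ?_
  rw [← PowerSeries.subst_comp_subst_apply hφs hFs, PowerSeries.subst_substInvOfIsUnit_right _ hψ0,
    PowerSeries.subst_X hFs]
  have e1 : ∀ (z : MvPowerSeries (Fin 2) (E0 p n)), PowerSeries.HasSubst z →
      MvPowerSeries.subst w (PowerSeries.subst z ψ) =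
        PowerSeries.subst (MvPowerSeries.subst w z) ψ := fun z hz => by
    rw [PowerSeries.subst_def, MvPowerSeries.subst_comp_subst_apply hz.const hws]
    rfl
  rw [← e1 _ hsFs, hhom, MvPowerSeries.subst_comp_subst_apply hψv hws]
  have ev : (fun i => MvPowerSeries.subst w
      (![PowerSeries.subst (MvPowerSeries.X 0 : MvPowerSeries (Fin 2) (E0 p n)) ψ,
        PowerSeries.subst (MvPowerSeries.X 1 : MvPowerSeries (Fin 2) (E0 p n)) ψ] i)) =
      MvPowerSeries.X := by
    have hone : ∀ j : Fin 2, MvPowerSeries.subst w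
        (PowerSeries.subst (MvPowerSeries.X j : MvPowerSeries (Fin 2) (E0 p n)) ψ) =
        MvPowerSeries.X j := fun j => by
      rw [e1 _ (hX j), MvPowerSeries.subst_X hws]
      have : w j = PowerSeries.subst (MvPowerSeries.X j : MvPowerSeries (Fin 2) (E0 p n)) φ := by
        fin_cases j <;> rfl
      rw [this, ← PowerSeries.subst_comp_subst_apply hφs (hX j),
        PowerSeries.subst_substInvOfIsUnit_right _ hψ0, PowerSeries.subst_X (hX j)]
    funext i
    fin_cases i
    · exact hone 0
    · exact hone 1
  rw [ev, MvPowerSeries.subst_self]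
  rfl

theorem coeff_digitSeries_sub_X {F : FormalGroup (E0 p n)} {t : ℕ → E0 p n} (I : Ideal (E0 p n))
    {K : ℕ} (ht : ∀ j < K, t j - (if j = 0 then 1 else 0) ∈ I) {k : ℕ} (hk : k < K) :
    PowerSeries.coeff k (digitSeries p F t) - PowerSeries.coeff k PowerSeries.X ∈ I := by
  rw [← Ideal.Quotient.eq_zero_iff_mem, map_sub, ← PowerSeries.coeff_map, ← PowerSeries.coeff_map,
    map_digitSeries, PowerSeries.map_X, coeff_digitSeries, sub_eq_zero]
  refine congrArg (PowerSeries.coeff k) ?_
  have hq : ∀ j < K, Ideal.Quotient.mk I (t j) = if j = 0 then 1 else 0 := fun j hj => by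
    have h := Ideal.Quotient.eq_zero_iff_mem.2 (ht j hj)
    rw [map_sub, sub_eq_zero] at h
    rw [h]
    split_ifs <;> simp
  rw [digitList, List.range_succ_eq_map, List.map_cons, seriesSum,
    seriesSum_all_zero _ fun b hb => ?_]
  · rw [hq 0 (by omega), if_pos rfl, map_one, one_mul, pow_zero, pow_one]
    exact (F.map _).add_zero (PowerSeries.HasSubst.of_constantCoeff_zero' PowerSeries.constantCoeff_X)
  · obtain ⟨j, hj, rfl⟩ := List.mem_map.1 hb
    obtain ⟨i, hi, rfl⟩ := List.mem_map.1 hj
    rw [List.mem_range] at hi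
    rw [hq (i + 1) (by omega), if_neg (Nat.succ_ne_zero i), map_zero, zero_mul]

/-- Block B from the parameters and digits and from the automorphisms. -/
theorem blockB_of (hC : CorePin) (hS : SigmaPin) : BlockB := by
  intro p n _ hn F hF c
  obtain ⟨a, t, hat, hcong⟩ := hC p n hn c
  obtain ⟨L, hL⟩ := hcong 2 0
  have hex : ∀ l, max 1 L ≤ l → ∃ s : E0 p n ≃+* E0 p n,
      (∀ w, s (constants w) = constants w) ∧ ∀ i, s (vv p n i) = a l i := by
    intro l hl
    obtain ⟨s, hs1, hs2⟩ := (hS p n).2 (a l) fun i _ _ => (hL l (le_of_max_le_right hl)).1 i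
    obtain ⟨han, ha0, -⟩ := hat l (le_of_max_le_left hl)
    refine ⟨s, hs1, fun i => ?_⟩
    by_cases hi : 1 ≤ i ∧ i < n
    · exact hs2 i hi.1 hi.2
    by_cases hin : i = n
    · subst hin
      rw [han, vv, dif_neg hi, if_pos rfl, map_one]
    · rw [ha0 i (by omega), vv, dif_neg hi, if_neg hin, map_zero]
  choose S hS1 hS2 using hex
  classical
  refine ⟨max 1 L, fun l => if h : max 1 L ≤ l then S l h else RingEquiv.refl _,
    fun l => digitSeries p F (t l), fun l hl => ?_, fun N K => ?_⟩
  · simp only [dif_pos hl]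
    obtain ⟨-, -, -, hres, hu, hrec⟩ := hat l (le_of_max_le_left hl)
    refine ⟨isSymmetryWith_digitSeries hF (hS2 l hl) hu hrec, hS1 l hl, ?_⟩
    rw [map_digitSeries, funext hres]
  · obtain ⟨L', hL'⟩ := hcong N K
    refine ⟨max (max 1 L) L', fun l hl => ?_⟩
    have hl1 : max 1 L ≤ l := le_of_max_le_left hl
    obtain ⟨hva, htj⟩ := hL' l (le_of_max_le_right hl)
    refine ⟨fun i => ?_, fun k hk => coeff_digitSeries_sub_X _ htj hk⟩
    simp only [dif_pos hl1, hS2 l hl1 i]
    exact hva i

end Vale.Agent.P217.B
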