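import Vale.Agent.P217.B.Core
import Vale.Agent.P217.B.Sigma
import Vale.Agent.P217.B.Symm

/-!
# P217: block B
-/

namespace Vale.Agent.P217

/-- Deep symmetries exist. -/
theorem blockB : BlockB := B.blockB_of (B.corePin B.sigmaPin) B.sigmaPin

end Vale.Agent.P217
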