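import Mathlib
import Vale.Agent.P217.FE

/-!
# P217, block B: the universal polynomials W

Variables u i, w i (the moved parameters), t j (the digits). R k = p * K k - sum of K i * w (k - i) ^ (p ^ i),
K the logarithm of the curve with digits t, is the logarithm of a curve W with integral coefficients,
whose derivatives modulo (p, u, w) are diagonal.
-/

noncomputable section

namespace Vale.Agent.P217.B

open FE MvPolynomial Finset

/-- The variables. -/
abbrev BV : Type := ℕ ⊕ ℕ ⊕ ℕ

/-- The polynomial ring. -/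
abbrev PB : Type := MvPolynomial BV ℤ

/-- The integers with p inverted. -/
abbrev ZI (p : ℕ) : Type := Localization.Away (p : ℤ)

/-- The polynomial ring with p inverted. -/
abbrev PK (p : ℕ) : Type := MvPolynomial BV (ZI p)

/-- The variable u i. -/
def xu (i : ℕ) : PB := X (Sum.inl i)

/-- The variable w i. -/
def xw (i : ℕ) : PB := X (Sum.inr (Sum.inl i))

/-- The variable t j. -/
def xt (j : ℕ) : PB := X (Sum.inr (Sum.inr j))

variable (p n : ℕ) [Fact p.Prime]

/-- The parameters. -/
def vB (i : ℕ) : PB := if 1 ≤ i ∧ i < n then xu i else if i = n then 1 else 0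

/-- The moved parameters. -/
def wB (i : ℕ) : PB := if 1 ≤ i ∧ i < n then xw i else if i = n then 1 else 0

theorem expand_vB (i : ℕ) : expand p (vB n i) = vB n i ^ p := by
  unfold vB xu
  split_ifs <;> simp [(Fact.out : p.Prime).ne_zero]

theorem expand_wB (i : ℕ) : expand p (wB n i) = wB n i ^ p := by
  unfold wB xw
  split_ifs <;> simp [(Fact.out : p.Prime).ne_zero]

theorem natCast_int_ne_zero : (p : ℤ) ≠ 0 := Int.natCast_ne_zero.mpr (Fact.out : p.Prime).ne_zero

/-- The setup on the polynomial ring. -/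
def bSetup : Setup PB (PK p) p where
  ι := MvPolynomial.map (algebraMap ℤ (ZI p))
  inj := map_injective _ (IsLocalization.injective _
    (powers_le_nonZeroDivisors_of_noZeroDivisors (natCast_int_ne_zero p)))
  pinv := MvPolynomial.C (IsLocalization.Away.invSelf (p : ℤ))
  p_pinv := by
    rw [← map_natCast (MvPolynomial.C (σ := BV) (R := ZI p)), ← map_mul,
      ← map_natCast (algebraMap ℤ (ZI p)), IsLocalization.Away.mul_invSelf, map_one]
  φ := (expand p).toRingHom
  φK := (expand p).toRingHom
  comm b := (map_expand (p := p) _ b).symm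
  frob b := by
    show (p : PB) ∣ expand p b - b ^ p
    rw [← map_natCast (MvPolynomial.C (σ := BV) (R := ℤ)), C_dvd_iff_zmod, map_sub, map_pow,
      map_expand, expand_zmod, sub_self]
  v := vB n
  φ_v := expand_vB p n

theorem bSetup_v (i : ℕ) : (bSetup p n).v i = vB n i := rfl

theorem iterate_xt (a j : ℕ) : ((bSetup p n).φ ^ a) (xt j) = xt j ^ p ^ a := by
  induction a with
  | zero => simp
  | succ a ih =>
    rw [pow_succ', RingHom.coe_mul, Function.comp_apply, ih]
    show expand p (xt j ^ p ^ a) = _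
    rw [map_pow, xt, expand_X, ← pow_mul, ← pow_succ']

theorem iterate_wB (a i : ℕ) : ((bSetup p n).φ ^ a) (wB n i) = wB n i ^ p ^ a := by
  induction a with
  | zero => simp
  | succ a ih =>
    rw [pow_succ', RingHom.coe_mul, Function.comp_apply, ih]
    show expand p (wB n i ^ p ^ a) = _
    rw [map_pow, expand_wB, ← pow_mul, ← pow_succ']

/-- The functional equation operator on sequences. -/
def opL (f : ℕ → PK p) (k : ℕ) : PK p :=
  f k - (bSetup p n).pinv * ∑ i ∈ range k,
    (bSetup p n).ι (vB n (k - i)) * ((bSetup p n).φK ^ (k - i)) (f i)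

/-- The logarithm of the curve with digits t. -/
def Kc (k : ℕ) : PK p :=
  ∑ i ∈ range (k + 1), (bSetup p n).m (k - i) * (bSetup p n).ι (xt i) ^ p ^ (k - i)

/-- The part coming from the moved parameters. -/
def gc (k : ℕ) : PK p :=
  ∑ i ∈ range k, Kc p n i * (bSetup p n).ι (wB n (k - i)) ^ p ^ i

/-- The equation. -/
def Rc (k : ℕ) : PK p :=
  if k = 0 then 0 else (p : PK p) * Kc p n k - gc p n k

theorem opL_Kc (k : ℕ) : opL p n (Kc p n) k = (bSetup p n).ι (xt k) := by
  have h : (bSetup p n).pinv * ∑ i ∈ range k,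
      (bSetup p n).ι (vB n (k - i)) * ((bSetup p n).φK ^ (k - i)) (Kc p n i) =
      ∑ l ∈ range k, (bSetup p n).m (k - l) * (bSetup p n).ι (xt l) ^ p ^ (k - l) := by
    have e : ∀ l ∈ range k, (bSetup p n).m (k - l) * (bSetup p n).ι (xt l) ^ p ^ (k - l) =
        ∑ j ∈ range (k - l), (bSetup p n).pinv * ((bSetup p n).ι (vB n (k - l - j)) *
          ((bSetup p n).φK ^ (k - l - j)) ((bSetup p n).m j)) *
            (bSetup p n).ι (xt l) ^ p ^ (k - l) := by
      intro l hl
      obtain ⟨r, hr⟩ : ∃ r, k - l = r + 1 := ⟨k - l - 1, by have := mem_range.mp hl; omega⟩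
      rw [hr, Setup.m_succ', Finset.mul_sum, Finset.sum_mul]
      rfl
    rw [Finset.sum_congr rfl e, Finset.mul_sum]
    simp only [Kc, map_sum, Finset.mul_sum]
    rw [Finset.sum_sigma', Finset.sum_sigma']
    refine Finset.sum_nbij' (fun x => ⟨x.2, x.1 - x.2⟩) (fun x => ⟨x.1 + x.2, x.1⟩) ?_ ?_ ?_ ?_ ?_
    · intro x hx
      simp only [Finset.mem_sigma, mem_range] at hx ⊢
      omega
    · intro x hx
      simp only [Finset.mem_sigma, mem_range] at hx ⊢
      omega
    · rintro ⟨j, i⟩ hx
      simp only [Finset.mem_sigma, mem_range] at hx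
      simp only [Sigma.mk.injEq, heq_eq_eq, and_true]
      omega
    · rintro ⟨j, i⟩ hx
      simp only [Sigma.mk.injEq, heq_eq_eq, true_and]
      omega
    · rintro ⟨i, l⟩ hx
      simp only [Finset.mem_sigma, mem_range] at hx
      simp only
      rw [map_mul, map_pow, Setup.iterate_comm, iterate_xt, map_pow, ← pow_mul, ← pow_add,
        show k - l - (i - l) = k - i by omega, show k - i + (i - l) = k - l by omega]
      ring
  rw [opL, h, Kc, Finset.sum_range_succ, Nat.sub_self, Setup.m_zero, pow_zero, pow_one, one_mul]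
  ring

theorem opL_gc (k : ℕ) : opL p n (gc p n) k =
    (bSetup p n).ι (∑ i ∈ range k, xt i * wB n (k - i) ^ p ^ i) := by
  have e : ∀ i, Kc p n i = (bSetup p n).ι (xt i) + (bSetup p n).pinv * ∑ l ∈ range i,
      (bSetup p n).ι (vB n (i - l)) * ((bSetup p n).φK ^ (i - l)) (Kc p n l) := by
    intro i
    have := opL_Kc p n i
    rw [opL, sub_eq_iff_eq_add] at this
    exact this
  have h : (bSetup p n).pinv * ∑ l ∈ range k,
      (bSetup p n).ι (vB n (k - l)) * ((bSetup p n).φK ^ (k - l)) (gc p n l) =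
      ∑ i ∈ range k, ((bSetup p n).pinv * ∑ l ∈ range i,
        (bSetup p n).ι (vB n (i - l)) * ((bSetup p n).φK ^ (i - l)) (Kc p n l)) *
        (bSetup p n).ι (wB n (k - i)) ^ p ^ i := by
    simp only [gc, map_sum, Finset.mul_sum, Finset.sum_mul]
    rw [Finset.sum_sigma', Finset.sum_sigma']
    refine Finset.sum_nbij' (fun x => ⟨x.2 + (k - x.1), x.2⟩) (fun x => ⟨k - (x.1 - x.2), x.2⟩)
      ?_ ?_ ?_ ?_ ?_
    · intro x hx
      simp only [Finset.mem_sigma, mem_range] at hx ⊢
      omega
    · intro x hx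
      simp only [Finset.mem_sigma, mem_range] at hx ⊢
      omega
    · rintro ⟨j, i⟩ hx
      simp only [Finset.mem_sigma, mem_range] at hx
      simp only [Sigma.mk.injEq, heq_eq_eq, and_true]
      omega
    · rintro ⟨j, i⟩ hx
      simp only [Finset.mem_sigma, mem_range] at hx
      simp only [Sigma.mk.injEq, heq_eq_eq, and_true]
      omega
    · rintro ⟨l, i⟩ hx
      simp only [Finset.mem_sigma, mem_range] at hx
      simp only
      rw [map_mul, map_pow, Setup.iterate_comm, iterate_wB, map_pow, ← pow_mul, ← pow_add,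
        show i + (k - l) - i = k - l by omega, show k - (i + (k - l)) = l - i by omega,
        show k - l + i = i + (k - l) by omega]
      ring
  rw [opL, h, gc, map_sum, sub_eq_iff_eq_add, ← Finset.sum_add_distrib]
  refine Finset.sum_congr rfl fun i _ => ?_
  rw [map_mul, map_pow]
  nth_rewrite 1 [e i]
  ring

theorem Rc_int (k : ℕ) : (bSetup p n).IsInt (opL p n (Rc p n) k) := by
  unfold Setup.IsInt
  rcases k with _ | k
  · exact ⟨0, by simp [opL, Rc]⟩
  have h : opL p n (Rc p n) (k + 1) =
      (p : PK p) * opL p n (Kc p n) (k + 1) - opL p n (gc p n) (k + 1) +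
        (bSetup p n).ι (vB n (k + 1) * xt 0 ^ p ^ (k + 1)) := by
    have hs : ∑ i ∈ range (k + 1),
        (bSetup p n).ι (vB n (k + 1 - i)) * ((bSetup p n).φK ^ (k + 1 - i)) (Rc p n i) =
        (p : PK p) * ∑ i ∈ range (k + 1),
          (bSetup p n).ι (vB n (k + 1 - i)) * ((bSetup p n).φK ^ (k + 1 - i)) (Kc p n i) -
        ∑ i ∈ range (k + 1),
          (bSetup p n).ι (vB n (k + 1 - i)) * ((bSetup p n).φK ^ (k + 1 - i)) (gc p n i) -
        (p : PK p) * (bSetup p n).ι (vB n (k + 1) * xt 0 ^ p ^ (k + 1)) := by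
      rw [Finset.sum_range_succ', Finset.sum_range_succ', Finset.sum_range_succ']
      simp only [Rc, Nat.add_eq_zero_iff, one_ne_zero, and_false, if_false, if_true, map_zero,
        mul_zero, add_zero, Nat.sub_zero, map_sub, map_mul, map_natCast]
      have hg0 : gc p n 0 = 0 := by simp [gc]
      have hK0 : Kc p n 0 = (bSetup p n).ι (xt 0) := by simp [Kc]
      rw [hg0, map_zero, mul_zero, add_zero, hK0, Setup.iterate_comm, iterate_xt]
      simp only [mul_add, Finset.mul_sum, map_pow]
      have e : ∀ a b c : PK p, a * ((p : PK p) * b - c) = (p : PK p) * (a * b) - a * c :=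
        fun a b c => by ring
      simp only [e]
      ring_nf
      rw [eq_sub_iff_add_eq, ← Finset.sum_add_distrib]
      exact Finset.sum_congr rfl fun x _ => sub_add_cancel _ _
    simp only [opL] at *
    rw [hs, show Rc p n (k + 1) = (p : PK p) * Kc p n (k + 1) - gc p n (k + 1) by simp [Rc]]
    linear_combination ((bSetup p n).ι (vB n (k + 1) * xt 0 ^ p ^ (k + 1))) * (bSetup p n).p_pinv
  rw [h, opL_Kc, opL_gc]
  refine ⟨(p : PB) * xt (k + 1) - (∑ i ∈ range (k + 1), xt i * wB n (k + 1 - i) ^ p ^ i) +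
    vB n (k + 1) * xt 0 ^ p ^ (k + 1), ?_⟩
  simp only [map_add, map_sub, map_mul, map_natCast]

/-- The polynomials W. -/
def Wp : ℕ → PB := ((bSetup p n).exists_curve (Rc p n) (Rc_int p n)).choose

theorem Rc_eq (k : ℕ) :
    Rc p n k = ∑ i ∈ range (k + 1), (bSetup p n).m (k - i) *
      (bSetup p n).ι (Wp p n i) ^ p ^ (k - i) :=
  ((bSetup p n).exists_curve (Rc p n) (Rc_int p n)).choose_spec k

theorem Wp_zero : Wp p n 0 = 0 := by
  apply (bSetup p n).inj
  have := Rc_eq p n 0
  simpa [Rc] using this.symm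

/-- Set the digits t j with j > k to zero. -/
def keep (k : ℕ) {A : Type} [CommRing A] : MvPolynomial BV A →+* MvPolynomial BV A :=
  (aeval (Sum.elim (fun i => X (Sum.inl i)) (Sum.elim (fun i => X (Sum.inr (Sum.inl i)))
    (fun j => if j ≤ k then X (Sum.inr (Sum.inr j)) else 0))) :
      MvPolynomial BV A →ₐ[A] MvPolynomial BV A).toRingHom

theorem keep_ι (k : ℕ) (b : PB) : keep k ((bSetup p n).ι b) = (bSetup p n).ι (keep k b) := by
  show ((keep k).comp (MvPolynomial.map (algebraMap ℤ (ZI p)))) b =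
    ((MvPolynomial.map (algebraMap ℤ (ZI p))).comp (keep k)) b
  congr 1
  refine MvPolynomial.ringHom_ext (fun r => by simp [keep]) fun x => ?_
  rcases x with i | i | j
  · simp [keep]
  · simp [keep]
  · by_cases hj : j ≤ k <;> simp [keep, hj]

theorem keep_pinv (k : ℕ) : keep k (bSetup p n).pinv = (bSetup p n).pinv := by
  simp [keep, bSetup]

theorem keep_vB (k i : ℕ) : keep k (vB n i) = vB n i := by
  unfold vB xu
  split_ifs <;> simp [keep]

theorem keep_wB (k i : ℕ) : keep k (wB n i) = wB n i := by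
  unfold wB xw
  split_ifs <;> simp [keep]

theorem keep_m (k j : ℕ) : keep k ((bSetup p n).m j) = (bSetup p n).m j := by
  induction j using Nat.strong_induction_on with
  | _ j ih =>
    cases j with
    | zero => simp
    | succ j =>
      rw [Setup.m_succ, map_mul, keep_pinv, map_sum]
      congr 1
      refine Finset.sum_congr rfl fun i hi => ?_
      rw [map_mul, map_pow, keep_ι, ih i (mem_range.mp hi), bSetup_v, keep_vB]

theorem keep_Kc {k i : ℕ} (hi : i ≤ k) : keep k (Kc p n i) = Kc p n i := by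
  rw [Kc, map_sum]
  refine Finset.sum_congr rfl fun l hl => ?_
  have hlk : l ≤ k := by have := mem_range.mp hl; omega
  rw [map_mul, map_pow, keep_ι, keep_m]
  simp [keep, xt, hlk]

theorem keep_Rc {k i : ℕ} (hi : i ≤ k) : keep k (Rc p n i) = Rc p n i := by
  unfold Rc
  split_ifs
  · exact map_zero _
  · rw [map_sub, map_mul, map_natCast, keep_Kc p n hi, gc, map_sum]
    congr 1
    refine Finset.sum_congr rfl fun l hl => ?_
    rw [map_mul, map_pow, keep_ι, keep_wB,
      keep_Kc p n (le_trans (mem_range.mp hl).le hi)]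

theorem keep_Wp {k i : ℕ} (hi : i ≤ k) : keep k (Wp p n i) = Wp p n i := by
  induction i using Nat.strong_induction_on with
  | _ i ih =>
    have h1 := Rc_eq p n i
    have h2 := keep_Rc p n hi
    rw [h1, map_sum] at h2
    rw [Finset.sum_range_succ, Finset.sum_range_succ] at h2
    simp only [map_mul, map_pow, keep_ι, keep_m, Nat.sub_self, Setup.m_zero, one_mul, pow_zero,
      pow_one] at h2
    rw [Finset.sum_congr rfl fun l hl => by
      rw [ih l (mem_range.mp hl) (le_trans (mem_range.mp hl).le hi)]] at h2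
    exact (bSetup p n).inj (add_left_cancel h2)

/-- The integral form of p ^ k * m k. -/
def Mb : ℕ → PB
  | 0 => 1
  | k + 1 => ∑ j : Fin (k + 1), (p : PB) ^ (k - j.1) * Mb j.1 * vB n (k + 1 - j.1) ^ p ^ j.1

theorem Mb_succ (k : ℕ) : Mb p n (k + 1) =
    ∑ j ∈ range (k + 1), (p : PB) ^ (k - j) * Mb p n j * vB n (k + 1 - j) ^ p ^ j := by
  rw [Mb, Fin.sum_univ_eq_sum_range
    (fun j => (p : PB) ^ (k - j) * Mb p n j * vB n (k + 1 - j) ^ p ^ j) (k + 1)]

theorem ι_Mb (k : ℕ) : (bSetup p n).ι (Mb p n k) = (p : PK p) ^ k * (bSetup p n).m k := by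
  induction k using Nat.strong_induction_on with
  | _ k ih =>
    cases k with
    | zero => simp [Mb]
    | succ k =>
      rw [Mb_succ, map_sum, Setup.m_succ, ← mul_assoc, pow_succ, mul_assoc ((p : PK p) ^ k),
        (bSetup p n).p_pinv, mul_one, Finset.mul_sum]
      refine Finset.sum_congr rfl fun j hj => ?_
      have hjk : j ≤ k := by have := mem_range.mp hj; omega
      rw [map_mul, map_mul, map_pow, map_pow, map_natCast, ih j (mem_range.mp hj), ← mul_assoc,
        ← pow_add, Nat.sub_add_cancel hjk, bSetup_v, ← mul_assoc]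

theorem pderiv_ι (x : BV) (b : PB) :
    pderiv x ((bSetup p n).ι b) = (bSetup p n).ι (pderiv x b) :=
  pderiv_map

variable {n} in
/-- Not a u variable. -/
def NotU (x : BV) : Prop := ∀ i, x ≠ Sum.inl i

theorem pderiv_vB {x : BV} (hx : NotU x) (i : ℕ) : pderiv x (vB n i) = 0 := by
  unfold vB xu
  split_ifs
  · exact pderiv_X_of_ne (hx i).symm
  · exact pderiv_one
  · simp

theorem pderiv_m {x : BV} (hx : NotU x) (j : ℕ) : pderiv x ((bSetup p n).m j) = 0 := by
  induction j using Nat.strong_induction_on with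
  | _ j ih =>
    cases j with
    | zero => simp
    | succ j =>
      have hp : pderiv x (bSetup p n).pinv = 0 := pderiv_C
      rw [Setup.m_succ, pderiv_mul, hp, zero_mul, zero_add, map_sum]
      simp only [pderiv_mul, pderiv_pow, pderiv_ι, bSetup_v, pderiv_vB n hx, map_zero, mul_zero,
        add_zero]
      rw [Finset.sum_eq_zero fun i hi => by rw [ih i (mem_range.mp hi), zero_mul], mul_zero]

/-- The integral derivative of Kc. -/
def DKb (x : BV) (k : ℕ) : PB :=
  ∑ i ∈ range (k + 1), Mb p n (k - i) * xt i ^ (p ^ (k - i) - 1) * pderiv x (xt i)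

theorem pderiv_term {x : BV} (hx : NotU x) (j : ℕ) (b : PB) :
    pderiv x ((bSetup p n).m j * (bSetup p n).ι b ^ p ^ j) =
      (bSetup p n).ι (Mb p n j * b ^ (p ^ j - 1) * pderiv x b) := by
  rw [pderiv_mul, pderiv_m p n hx, zero_mul, zero_add, pderiv_pow, pderiv_ι, map_mul, map_mul,
    map_pow, ι_Mb, Nat.cast_pow]
  ring

theorem pderiv_Kc {x : BV} (hx : NotU x) (k : ℕ) :
    pderiv x (Kc p n k) = (bSetup p n).ι (DKb p n x k) := by
  rw [Kc, DKb, map_sum, map_sum]
  exact Finset.sum_congr rfl fun i _ => pderiv_term p n hx _ _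

/-- The integral form of p ^ i * Kc i. -/
def Kb (i : ℕ) : PB :=
  ∑ l ∈ range (i + 1), Mb p n (i - l) * (p : PB) ^ l * xt l ^ p ^ (i - l)

theorem ι_Kb (i : ℕ) : (bSetup p n).ι (Kb p n i) = (p : PK p) ^ i * Kc p n i := by
  rw [Kb, Kc, map_sum, Finset.mul_sum]
  refine Finset.sum_congr rfl fun l hl => ?_
  have hli : l ≤ i := by have := mem_range.mp hl; omega
  rw [map_mul, map_mul, map_pow, map_pow, map_natCast, ι_Mb]
  have : (p : PK p) ^ i = (p : PK p) ^ (i - l) * (p : PK p) ^ l := by
    rw [← pow_add, Nat.sub_add_cancel hli]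
  rw [this]
  ring

/-- The integral derivative of Rc. -/
def DRb (x : BV) (k : ℕ) : PB :=
  (p : PB) * DKb p n x k - ∑ i ∈ range k, (DKb p n x i * wB n (k - i) ^ p ^ i +
    Kb p n i * wB n (k - i) ^ (p ^ i - 1) * pderiv x (wB n (k - i)))

theorem pderiv_Rc {x : BV} (hx : NotU x) {k : ℕ} (hk : k ≠ 0) :
    pderiv x (Rc p n k) = (bSetup p n).ι (DRb p n x k) := by
  have hp0 : pderiv x (p : PK p) = 0 := by
    rw [← map_natCast (MvPolynomial.C (σ := BV) (R := ZI p))]
    exact pderiv_C
  rw [Rc, if_neg hk, map_sub, pderiv_mul, hp0, DRb, map_sub (bSetup p n).ι, map_mul, map_natCast,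
    zero_mul, zero_add, pderiv_Kc p n hx, gc, map_sum, map_sum]
  congr 1
  refine Finset.sum_congr rfl fun i _ => ?_
  rw [pderiv_mul, pderiv_Kc p n hx, pderiv_pow, pderiv_ι, map_add, map_mul, map_mul, map_mul,
    map_pow, map_pow, ι_Kb, Nat.cast_pow]
  ring

theorem DRb_eq {x : BV} (hx : NotU x) {k : ℕ} (hk : k ≠ 0) :
    DRb p n x k = ∑ i ∈ range (k + 1),
      Mb p n (k - i) * Wp p n i ^ (p ^ (k - i) - 1) * pderiv x (Wp p n i) := by
  apply (bSetup p n).inj
  rw [← pderiv_Rc p n hx hk, Rc_eq, map_sum, map_sum]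
  exact Finset.sum_congr rfl fun i _ => pderiv_term p n hx _ _

variable {A : Type} [CommRing A] [CharP A p]

/-- The residual evaluation: u and w go to 0, t to c. -/
def rho (c : ℕ → A) : PB →+* A :=
  eval₂Hom (Int.castRingHom A) (Sum.elim 0 (Sum.elim 0 c))

theorem rho_p (c : ℕ → A) : rho (A := A) c (p : PB) = 0 := by
  rw [map_natCast, CharP.cast_eq_zero]

theorem rho_vB (c : ℕ → A) (i : ℕ) : rho c (vB n i) = if i = n then 1 else 0 := by
  unfold vB xu
  split_ifs with h1 h2 <;> simp [rho] <;> omega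

theorem rho_wB (c : ℕ → A) (i : ℕ) : rho c (wB n i) = if i = n then 1 else 0 := by
  unfold wB xw
  split_ifs with h1 h2 <;> simp [rho] <;> omega

theorem rho_Mb (hn : 2 ≤ n) (c : ℕ → A) (k : ℕ) :
    rho c (Mb p n k) = if k = 0 then 1 else 0 := by
  cases k with
  | zero => simp [Mb]
  | succ k =>
    rw [if_neg (Nat.succ_ne_zero k), Mb_succ, map_sum]
    refine Finset.sum_eq_zero fun j hj => ?_
    rcases eq_or_ne j k with rfl | hjk
    · rw [map_mul, map_pow _ (vB n _), rho_vB, Nat.add_sub_cancel_left, if_neg (by omega),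
        zero_pow (pow_ne_zero _ (Fact.out : p.Prime).ne_zero), mul_zero]
    · rw [map_mul, map_mul, map_pow, rho_p, zero_pow (by have := mem_range.mp hj; omega),
        zero_mul, zero_mul]

theorem rho_DKb (hn : 2 ≤ n) (c : ℕ → A) (x : BV) (k : ℕ) :
    rho c (DKb p n x k) = rho c (pderiv x (xt k)) := by
  rw [DKb, map_sum, Finset.sum_range_succ, Finset.sum_eq_zero, zero_add]
  · simp [rho_Mb p n hn]
  · intro i hi
    rw [map_mul, map_mul, rho_Mb p n hn, if_neg (by have := mem_range.mp hi; omega), zero_mul,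
      zero_mul]

theorem rho_Kb (hn : 2 ≤ n) (c : ℕ → A) (i : ℕ) :
    rho c (Kb p n i) = if i = 0 then c 0 else 0 := by
  rw [Kb, map_sum, Finset.sum_range_succ, Finset.sum_eq_zero, zero_add]
  · rcases i with _ | i
    · simp [Mb, rho, xt]
    · simp
  · intro l hl
    rw [map_mul, map_mul, rho_Mb p n hn, if_neg (by have := mem_range.mp hl; omega), zero_mul,
      zero_mul]

theorem rho_pderiv_Wp (hn : 2 ≤ n) (c : ℕ → A) {x : BV} (hx : NotU x) {k : ℕ} (hk : k ≠ 0) :
    rho c (pderiv x (Wp p n k)) =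
      -((if n ≤ k then rho c (pderiv x (xt (k - n))) else 0) +
        c 0 * rho c (pderiv x (wB n k))) := by
  have h := congrArg (rho c) (DRb_eq p n hx hk)
  rw [map_sum, Finset.sum_range_succ, Finset.sum_eq_zero, zero_add] at h
  · simp only [map_mul, Nat.sub_self, rho_Mb p n hn, pow_zero, if_true, one_mul, map_one] at h
    rw [← h, DRb, map_sub, map_mul, rho_p, zero_mul, zero_sub, map_sum]
    congr 1
    simp only [map_add, map_mul, map_pow, rho_DKb p n hn, rho_Kb p n hn, rho_wB,
      Finset.sum_add_distrib]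
    congr 1
    · rw [Finset.sum_eq_single (k - n)]
      · by_cases hnk : n ≤ k
        · simp [hnk, show k - (k - n) = n by omega]
        · have : k - n = 0 := by omega
          rw [this, if_neg hnk, Nat.sub_zero, if_neg (by omega)]
          simp
      · intro i hi hne
        rw [if_neg (by have := mem_range.mp hi; omega),
          zero_pow (pow_ne_zero _ (Fact.out : p.Prime).ne_zero), mul_zero]
      · intro hnot
        exact absurd (mem_range.mpr (by omega)) hnot
    · rw [Finset.sum_eq_single 0]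
      · simp
      · intro i _ hne
        simp [hne]
      · intro hnot
        exact absurd (mem_range.mpr (Nat.pos_of_ne_zero hk)) hnot
  · intro i hi
    rw [map_mul, map_mul, rho_Mb p n hn, if_neg (by have := mem_range.mp hi; omega), zero_mul,
      zero_mul]

end Vale.Agent.P217.B
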