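import Mathlib
import Vale.Agent.P217.Interfaces
import Vale.Agent.P217.FEBridge
import Vale.Agent.P217.B.Pins
import Vale.Agent.P217.B.Poly

/-!
# P217, block B: the Newton iteration
-/

noncomputable section

namespace Vale.Agent.P217.B

open FE MvPolynomial Finset

theorem taylor {R : Type} [CommRing R] (I : Ideal R) {r : ℕ} (hr : 1 ≤ r) (f g : BV → R)
    (h : ∀ x, f x - g x ∈ I ^ r) (P : PB) :
    ∃ S₀ : Finset BV, ∀ S, S₀ ⊆ S →
      eval₂Hom (Int.castRingHom R) f P - eval₂Hom (Int.castRingHom R) g P -
        ∑ x ∈ S, eval₂Hom (Int.castRingHom R) f (pderiv x P) * (f x - g x) ∈ I ^ (r + 1) := by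
  induction P using MvPolynomial.induction_on with
  | C a => exact ⟨∅, fun S _ => by simp⟩
  | add P Q hP hQ =>
    obtain ⟨S₁, h₁⟩ := hP
    obtain ⟨S₂, h₂⟩ := hQ
    refine ⟨S₁ ∪ S₂, fun S hS => ?_⟩
    have := add_mem (h₁ S (Finset.union_subset_left hS)) (h₂ S (Finset.union_subset_right hS))
    convert this using 1
    simp only [map_add, add_mul, Finset.sum_add_distrib]
    ring
  | mul_X P y hP =>
    classical
    obtain ⟨S₁, h₁⟩ := hP
    refine ⟨insert y S₁, fun S hS => ?_⟩
    have hS₁ : S₁ ⊆ S := fun z hz => hS (mem_insert_of_mem hz)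
    have hy : y ∈ S := hS (mem_insert_self _ _)
    have e1 := h₁ S hS₁
    have hdiff : eval₂Hom (Int.castRingHom R) f P - eval₂Hom (Int.castRingHom R) g P ∈ I ^ r := by
      have e2 : ∑ x ∈ S, eval₂Hom (Int.castRingHom R) f (pderiv x P) * (f x - g x) ∈ I ^ r :=
        Ideal.sum_mem _ fun x _ => Ideal.mul_mem_left _ _ (h x)
      have := add_mem (Ideal.pow_le_pow_right (Nat.le_succ r) e1) e2
      rwa [sub_add_cancel] at this
    have e3 : (eval₂Hom (Int.castRingHom R) f P - eval₂Hom (Int.castRingHom R) g P) * (f y - g y)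
        ∈ I ^ (r + 1) := by
      have := Ideal.mul_mem_mul hdiff (h y)
      rw [← pow_add] at this
      exact Ideal.pow_le_pow_right (by omega) this
    have key : ∑ x ∈ S, eval₂Hom (Int.castRingHom R) f (pderiv x (P * X y)) * (f x - g x) =
        (∑ x ∈ S, eval₂Hom (Int.castRingHom R) f (pderiv x P) * (f x - g x)) * f y +
          eval₂Hom (Int.castRingHom R) f P * (f y - g y) := by
      rw [Finset.sum_mul, ← Finset.add_sum_erase _ _ hy, ← Finset.add_sum_erase _ _ hy]
      have : ∀ x ∈ S.erase y, eval₂Hom (Int.castRingHom R) f (pderiv x (P * X y)) * (f x - g x) =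
          eval₂Hom (Int.castRingHom R) f (pderiv x P) * (f x - g x) * f y := fun x hx => by
        rw [pderiv_mul, pderiv_X_of_ne (Finset.ne_of_mem_erase hx).symm, mul_zero, add_zero,
          map_mul, eval₂Hom_X']
        ring
      rw [Finset.sum_congr rfl this, pderiv_mul, pderiv_X_self, mul_one, map_add, map_mul,
        eval₂Hom_X']
      ring
    have := sub_mem (Ideal.mul_mem_right (f y) _ e1) e3
    convert this using 1
    rw [key, map_mul, map_mul, eval₂Hom_X', eval₂Hom_X']
    ring

theorem taylor_step {R : Type} [CommRing R] (I : Ideal R) {r : ℕ} (hr : 1 ≤ r) (f g : BV → R)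
    (h : ∀ x, f x - g x ∈ I ^ r) (P : PB)
    (hd : ∀ x, f x = g x ∨ eval₂Hom (Int.castRingHom R) f (pderiv x P) ∈ I) :
    eval₂Hom (Int.castRingHom R) f P - eval₂Hom (Int.castRingHom R) g P ∈ I ^ (r + 1) := by
  obtain ⟨S₀, h₀⟩ := taylor I hr f g h P
  have h1 := h₀ S₀ subset_rfl
  have h2 : ∑ x ∈ S₀, eval₂Hom (Int.castRingHom R) f (pderiv x P) * (f x - g x) ∈ I ^ (r + 1) :=
    Ideal.sum_mem _ fun x _ => by
      rcases hd x with he | he
      · simp [he]
      · rw [pow_succ']
        exact Ideal.mul_mem_mul he (h x)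
  simpa using add_mem h1 h2

variable (p n : ℕ) [Fact p.Prime]

theorem isUnit_natCast_int {A : Type} [CommRing A] {inv : A} (h : (p : A) * inv = 1) :
    IsUnit (Int.castRingHom A (p : ℤ)) := by
  rw [eq_intCast, Int.cast_natCast]
  exact IsUnit.of_mul_eq_one _ h

/-- Evaluation of the polynomials with p inverted. -/
def evK {A : Type} [CommRing A] (inv : A) (h : (p : A) * inv = 1) (f : BV → A) : PK p →+* A :=
  eval₂Hom (IsLocalization.Away.lift (p : ℤ) (isUnit_natCast_int p h)) f

theorem evK_ι {A : Type} [CommRing A] (inv : A) (h : (p : A) * inv = 1) (f : BV → A) (b : PB) :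
    evK p inv h f ((bSetup p n).ι b) = eval₂Hom (Int.castRingHom A) f b := by
  show ((evK p inv h f).comp (MvPolynomial.map (algebraMap ℤ (ZI p)))) b = _
  congr 1
  exact MvPolynomial.ringHom_ext (fun r => by simp [evK]) fun x => by simp [evK]

theorem evK_pinv {A : Type} [CommRing A] (inv : A) (h : (p : A) * inv = 1) (f : BV → A) :
    evK p inv h f (bSetup p n).pinv = inv := by
  have h1 : (p : A) * evK p inv h f (bSetup p n).pinv = 1 := by
    simpa using congrArg (evK p inv h f) (bSetup p n).p_pinv
  calc evK p inv h f (bSetup p n).pinv = ((p : A) * inv) * evK p inv h f (bSetup p n).pinv := by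
        rw [h, one_mul]
    _ = inv * ((p : A) * evK p inv h f (bSetup p n).pinv) := by ring
    _ = inv := by rw [h1, mul_one]

/-- The point of a vector z: z k is the parameter w k for k < n and the digit t (k - n) for k ≥ n. -/
def pt (z : ℕ → E0 p n) : BV → E0 p n :=
  Sum.elim (fun i => if 1 ≤ i ∧ i < n then vv p n i else 0)
    (Sum.elim (fun i => if 1 ≤ i ∧ i < n then z i else 0) fun j => z (j + n))

/-- Evaluation at z. -/
abbrev ev (z : ℕ → E0 p n) : PB →+* E0 p n := eval₂Hom (Int.castRingHom (E0 p n)) (pt p n z)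

/-- One step of the iteration. -/
def T (z : ℕ → E0 p n) (k : ℕ) : E0 p n := if k = 0 then 0 else z k + ev p n z (Wp p n k)

theorem mem_maximal_iff (a : E0 p n) :
    a ∈ IsLocalRing.maximalIdeal (E0 p n) ↔ residue a = 0 := by
  rw [IsLocalRing.mem_maximalIdeal, mem_nonunits_iff]
  constructor
  · intro h
    by_contra hne
    apply h
    rw [MvPowerSeries.isUnit_iff_constantCoeff]
    exact WittVector.isUnit_of_coeff_zero_ne_zero _ hne
  · intro h hu
    exact not_isUnit_zero (h ▸ hu.map residue)

theorem residue_vv {i : ℕ} (h : 1 ≤ i ∧ i < n) : residue (vv p n i) = 0 := by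
  simp [residue, vv, h]

/-- z lies over residual digits with leading digit 1. -/
def Good (z : ℕ → E0 p n) : Prop :=
  (∀ i, 1 ≤ i → i < n → residue (z i) = 0) ∧ residue (z n) = 1

theorem residue_ev (z : ℕ → E0 p n) (hz : ∀ i, 1 ≤ i → i < n → residue (z i) = 0) (b : PB) :
    residue (ev p n z b) = rho (fun j => residue (z (j + n))) b := by
  show (residue.comp (ev p n z)) b = _
  congr 1
  refine MvPolynomial.ringHom_ext (fun r => by simp [rho]) fun x => ?_
  rcases x with i | i | j
  · by_cases h : 1 ≤ i ∧ i < n <;> simp [rho, pt, h, residue_vv]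
  · by_cases h : 1 ≤ i ∧ i < n <;> simp [rho, pt, h, hz]
  · simp [rho, pt]

/-- The variable of coordinate k. -/
def xk (k : ℕ) : PB := if k < n then xw k else xt (k - n)

theorem ev_xk (z : ℕ → E0 p n) {k : ℕ} (hk : 1 ≤ k) : ev p n z (xk n k) = z k := by
  unfold xk xw xt
  split_ifs with h
  · simp [pt, h, hk]
  · simp [pt, show k - n + n = k by omega]

theorem step (hn : 2 ≤ n) {z z' : ℕ → E0 p n} (hz : Good p n z) {r k : ℕ} (hr : 1 ≤ r)
    (hk : 1 ≤ k)
    (h : ∀ i, 1 ≤ i → i ≤ k + n → z i - z' i ∈ IsLocalRing.maximalIdeal (E0 p n) ^ r) :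
    T p n z k - T p n z' k ∈ IsLocalRing.maximalIdeal (E0 p n) ^ (r + 1) := by
  classical
  set P : PB := xk n k + Wp p n k with hP
  have hT : ∀ y : ℕ → E0 p n, T p n y k = ev p n y P := fun y => by
    rw [T, if_neg (by omega), hP, map_add, ev_xk p n y hk]
  have hkeep : keep k P = P := by
    rw [hP, map_add, keep_Wp p n le_rfl]
    congr 1
    unfold xk xw xt
    split_ifs with h'
    · simp [keep]
    · simp [keep, show k - n ≤ k from Nat.sub_le k n]
  let cut : (ℕ → E0 p n) → BV → E0 p n := fun y =>
    Sum.elim (fun i => pt p n y (Sum.inl i)) (Sum.elim (fun i => pt p n y (Sum.inr (Sum.inl i)))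
      fun j => if j ≤ k then y (j + n) else 0)
  have hcut : ∀ y, ev p n y P = eval₂Hom (Int.castRingHom _) (cut y) P := fun y => by
    conv_lhs => rw [← hkeep]
    show ((ev p n y).comp (keep k)) P = _
    congr 1
    refine MvPolynomial.ringHom_ext (fun q => by simp [keep]) fun x => ?_
    rcases x with i | i | j
    · simp [keep, cut]
    · simp [keep, cut]
    · by_cases hj : j ≤ k <;> simp [keep, cut, pt, hj]
  rw [hT, hT, hcut, hcut]
  refine taylor_step _ hr _ _ ?_ P ?_
  · rintro (i | i | j)
    · simp [cut, pt]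
    · by_cases hi : 1 ≤ i ∧ i < n
      · simpa [cut, pt, hi] using h i hi.1 (by omega)
      · simp [cut, pt, hi]
    · by_cases hj : j ≤ k
      · simpa [cut, hj] using h (j + n) (by omega) (by omega)
      · simp [cut, hj]
  · intro x
    let c : ℕ → GaloisField p n := fun j => if j ≤ k then residue (z (j + n)) else 0
    have hres : ∀ b, residue (eval₂Hom (Int.castRingHom _) (cut z) b) = rho c b := by
      intro b
      show (residue.comp (eval₂Hom (Int.castRingHom _) (cut z))) b = _
      congr 1
      refine MvPolynomial.ringHom_ext (fun q => by simp [rho]) fun y => ?_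
      rcases y with i | i | j
      · by_cases hi : 1 ≤ i ∧ i < n <;> simp [rho, cut, pt, hi, residue_vv]
      · by_cases hi : 1 ≤ i ∧ i < n <;> simp [rho, cut, pt, hi, hz.1]
      · by_cases hj : j ≤ k <;> simp [rho, cut, c, hj]
    have hc0 : c 0 = 1 := by simp [c, hz.2]
    rcases x with i | i | j
    · exact Or.inl (by simp [cut, pt])
    · refine Or.inr ((mem_maximal_iff p n _).mpr ?_)
      rw [hres, hP, map_add, map_add,
        rho_pderiv_Wp p n hn c (fun l => by simp) (by omega : k ≠ 0), hc0, one_mul]
      have e1 : rho c (pderiv (Sum.inr (Sum.inl i)) (xt (k - n))) = 0 := by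
        rw [xt, pderiv_X_of_ne (by simp), map_zero]
      rw [e1, ite_self, zero_add]
      unfold xk wB xw
      split_ifs with h1 h2 h3 <;> first
        | omega
        | simp [pderiv_X, Pi.single_apply, xt]
    · refine Or.inr ((mem_maximal_iff p n _).mpr ?_)
      rw [hres, hP, map_add, map_add,
        rho_pderiv_Wp p n hn c (fun l => by simp) (by omega : k ≠ 0), hc0, one_mul]
      have e1 : rho c (pderiv (Sum.inr (Sum.inr j)) (wB n k)) = 0 := by
        unfold wB xw
        split_ifs <;> simp
      rw [e1, add_zero]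
      unfold xk
      split_ifs with h1 h2 <;> first
        | omega
        | simp [pderiv_X, Pi.single_apply, xw]

/-- The digits as Teichmueller lifts. -/
def teich (c : GaloisField p n) : E0 p n := constants (WittVector.teichmuller p c)

theorem residue_teich (c : GaloisField p n) : residue (teich p n c) = c := by
  simp [residue, teich, constants, WittVector.constantCoeff, WittVector.teichmuller_coeff_zero]

theorem teich_pow_q (hn : n ≠ 0) (c : GaloisField p n) :
    WittVector.teichmuller p c ^ p ^ n = WittVector.teichmuller p c := by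
  rw [← map_pow]
  congr 1
  have : Fintype (GaloisField p n) := Fintype.ofFinite _
  have h : Fintype.card (GaloisField p n) = p ^ n := by
    rw [← Nat.card_eq_fintype_card, GaloisField.card p n hn]
  rw [← h, FiniteField.pow_card]

theorem rho_Wp_zero (hn : 2 ≤ n) (c : ℕ → GaloisField p n) (k : ℕ) :
    rho c (Wp p n k) = 0 := by
  let f : BV → WInv p n := Sum.elim 0
    (Sum.elim 0 fun j => algebraMap _ _ (WittVector.teichmuller p (c j)))
  let f₀ : BV → WittVector p (GaloisField p n) :=
    Sum.elim 0 (Sum.elim 0 fun j => WittVector.teichmuller p (c j))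
  let S := wittSetup p n
  let e := evK p S.pinv S.p_pinv f
  let e₀ : PB →+* WittVector p (GaloisField p n) := eval₂Hom (Int.castRingHom _) f₀
  have he : ∀ b, e ((bSetup p n).ι b) = S.ι (e₀ b) := by
    intro b
    rw [evK_ι]
    show _ = (S.ι.comp e₀) b
    congr 1
    refine MvPolynomial.ringHom_ext (fun q => by simp [e₀]) fun x => ?_
    rcases x with i | i | j <;> simp [e₀, f, f₀, S, wittSetup]
  have hv : ∀ i, e₀ (vB n i) = if i = n then 1 else 0 := by
    intro i
    unfold vB xu
    split_ifs with h1 h2 <;> simp [e₀, f₀] <;> omega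
  have hw : ∀ i, e₀ (wB n i) = if i = n then 1 else 0 := by
    intro i
    unfold wB xw
    split_ifs with h1 h2 <;> simp [e₀, f₀] <;> omega
  have hm : ∀ j, e ((bSetup p n).m (j + 1)) =
      if n ≤ j + 1 then S.pinv * e ((bSetup p n).m (j + 1 - n)) else 0 := by
    intro j
    rw [Setup.m_succ, map_mul, evK_pinv, map_sum]
    simp only [map_mul, map_pow, he, bSetup_v, hv]
    split_ifs with hj
    · rw [Finset.sum_eq_single (j + 1 - n)]
      · rw [if_pos (by omega), map_one, one_pow, mul_one]
      · intro i hi hne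
        rw [if_neg (by have := mem_range.mp hi; omega), map_zero,
          zero_pow (pow_ne_zero _ (Fact.out : p.Prime).ne_zero), mul_zero]
      · intro hnot
        exact absurd (mem_range.mpr (by omega)) hnot
    · rw [Finset.sum_eq_zero, mul_zero]
      intro i hi
      rw [if_neg (by have := mem_range.mp hi; omega), map_zero,
        zero_pow (pow_ne_zero _ (Fact.out : p.Prime).ne_zero), mul_zero]
  let τ : ℕ → WInv p n := fun j => S.ι (WittVector.teichmuller p (c j))
  have hK : ∀ i, e (Kc p n i) = τ i + (if n ≤ i then S.pinv * e (Kc p n (i - n)) else 0) := by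
    intro i
    rw [Kc, map_sum, Finset.sum_range_succ, add_comm]
    congr 1
    · rw [map_mul, map_pow, he, Nat.sub_self, Setup.m_zero, map_one, one_mul, pow_zero, pow_one]
      simp [τ, e₀, f₀, xt]
    · have hterm : ∀ l < i, e ((bSetup p n).m (i - l) * (bSetup p n).ι (xt l) ^ p ^ (i - l)) =
          if n ≤ i - l then
            S.pinv * e ((bSetup p n).m (i - n - l) * (bSetup p n).ι (xt l) ^ p ^ (i - n - l))
          else 0 := by
        intro l hl
        obtain ⟨d, hd⟩ : ∃ d, i - l = d + 1 := ⟨i - l - 1, by omega⟩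
        rw [map_mul, map_pow, he, hd, hm]
        split_ifs with h1
        · rw [map_mul, map_pow, he, show d + 1 - n = i - n - l by omega, mul_assoc]
          congr 2
          have ht : e₀ (xt l) = WittVector.teichmuller p (c l) := by simp [e₀, f₀, xt]
          rw [ht, show d + 1 = n + (i - n - l) by omega, pow_add, pow_mul, ← map_pow,
            teich_pow_q p n (by omega)]
        · rw [zero_mul]
      rw [Finset.sum_congr rfl fun l hl => hterm l (mem_range.mp hl)]
      split_ifs with hni
      · rw [Kc, map_sum, Finset.mul_sum]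
        rw [← Finset.sum_subset (s₁ := range (i - n + 1)) (s₂ := range i)]
        · refine Finset.sum_congr rfl fun l hl => ?_
          rw [if_pos (by have := mem_range.mp hl; omega)]
        · intro l hl
          have := mem_range.mp hl
          exact mem_range.mpr (by omega)
        · intro l hl hnot
          rw [mem_range] at hl hnot
          rw [if_neg (by omega)]
      · exact Finset.sum_eq_zero fun l _ => if_neg (by omega)
  have hR : ∀ i, e (Rc p n i) = if i = 0 then 0 else (p : WInv p n) * τ i := by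
    intro i
    unfold Rc
    split_ifs with hi
    · exact map_zero _
    have hg : e (gc p n i) = if n ≤ i then e (Kc p n (i - n)) else 0 := by
      rw [gc, map_sum]
      simp only [map_mul, map_pow, he, hw]
      split_ifs with hni
      · rw [Finset.sum_eq_single (i - n)]
        · rw [if_pos (by omega), map_one, one_pow, mul_one]
        · intro l hl hne
          rw [if_neg (by have := mem_range.mp hl; omega), map_zero,
            zero_pow (pow_ne_zero _ (Fact.out : p.Prime).ne_zero), mul_zero]
        · intro hnot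
          exact absurd (mem_range.mpr (by omega)) hnot
      · refine Finset.sum_eq_zero fun l hl => ?_
        rw [if_neg (by omega), map_zero,
          zero_pow (pow_ne_zero _ (Fact.out : p.Prime).ne_zero), mul_zero]
    rw [map_sub, map_mul, map_natCast, hg, hK i]
    split_ifs with hni
    · rw [mul_add, ← mul_assoc, S.p_pinv, one_mul, add_sub_cancel_right]
    · rw [add_zero, sub_zero]
  have key : ∀ i, (p : WittVector p (GaloisField p n)) ∣ e₀ (Wp p n i) := by
    intro i
    induction i using Nat.strong_induction_on with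
    | _ i ih =>
      have h := hR i
      rw [Rc_eq, map_sum, Finset.sum_range_succ, Nat.sub_self, Setup.m_zero, one_mul, pow_zero,
        pow_one, he] at h
      have h2 : S.IsPInt (∑ l ∈ range i,
          e ((bSetup p n).m (i - l) * (bSetup p n).ι (Wp p n l) ^ p ^ (i - l))) := by
        refine S.isPInt_sum _ _ fun l hl => ?_
        obtain ⟨w', hw'⟩ := ih l (mem_range.mp hl)
        obtain ⟨d, hd⟩ : ∃ d, p ^ (i - l) = (i - l) + 1 + d := by
          have := Nat.lt_pow_self (Fact.out : p.Prime).one_lt (n := i - l)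
          exact ⟨p ^ (i - l) - (i - l) - 1, by omega⟩
        refine ⟨e₀ (Mb p n (i - l)) * ((p : WittVector p (GaloisField p n)) ^ d *
          w' ^ p ^ (i - l)), ?_⟩
        rw [map_mul, map_pow, he, hw', map_mul, map_mul, map_natCast, map_mul, ← he, ι_Mb,
          map_mul, map_pow, map_natCast, map_mul, map_pow, map_pow, map_natCast, mul_pow, hd,
          pow_add, pow_add, pow_one]
        ring
      have h3 : S.IsPInt (S.ι (e₀ (Wp p n i))) := by
        obtain ⟨b, hb⟩ := h2
        rw [hb] at h
        rcases Nat.eq_zero_or_pos i with rfl | hi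
        · exact ⟨-b, by rw [mul_neg, map_neg]; rw [if_pos rfl] at h; linear_combination h⟩
        · refine ⟨WittVector.teichmuller p (c i) - b, ?_⟩
          rw [if_neg (by omega)] at h
          rw [mul_sub, map_sub, map_mul, map_natCast]
          linear_combination h
      obtain ⟨b, hb⟩ := h3
      exact ⟨b, S.inj hb⟩
  have hrho : rho c (Wp p n k) = WittVector.constantCoeff (e₀ (Wp p n k)) := by
    show _ = (WittVector.constantCoeff.comp e₀) _
    congr 1
    refine MvPolynomial.ringHom_ext (fun q => by simp [rho]) fun x => ?_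
    rcases x with i | i | j <;>
      simp [rho, e₀, f₀, WittVector.constantCoeff, WittVector.teichmuller_coeff_zero]
  obtain ⟨b, hb⟩ := key k
  rw [hrho, hb, map_mul, map_natCast, CharP.cast_eq_zero, zero_mul]

theorem residue_T (hn : 2 ≤ n) {z : ℕ → E0 p n} (hz : Good p n z) {k : ℕ} (hk : 1 ≤ k) :
    residue (T p n z k) = residue (z k) := by
  rw [T, if_neg (by omega), map_add, residue_ev p n z hz.1, rho_Wp_zero p n hn, add_zero]

theorem good_T (hn : 2 ≤ n) {z : ℕ → E0 p n} (hz : Good p n z) : Good p n (T p n z) :=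
  ⟨fun i h1 h2 => by rw [residue_T p n hn hz h1, hz.1 i h1 h2],
    by rw [residue_T p n hn hz (by omega), hz.2]⟩

/-- The evaluation into E0 with p inverted. -/
def evI (z : ℕ → E0 p n) : PK p →+* E0Inv p n :=
  evK p (e0Setup p n).pinv (e0Setup p n).p_pinv fun x => algebraMap _ _ (pt p n z x)

theorem evI_ι (z : ℕ → E0 p n) (b : PB) :
    evI p n z ((bSetup p n).ι b) = algebraMap (E0 p n) (E0Inv p n) (ev p n z b) := by
  rw [evI, evK_ι]
  show _ = ((algebraMap (E0 p n) (E0Inv p n)).comp (ev p n z)) b
  congr 1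
  exact MvPolynomial.ringHom_ext (fun r => by simp) fun x => by simp

theorem ev_vB (z : ℕ → E0 p n) (i : ℕ) : ev p n z (vB n i) = vv p n i := by
  unfold vB xu vv
  split_ifs with h1 h2 <;> simp [pt, h1, vv]

theorem evI_m (z : ℕ → E0 p n) (k : ℕ) : evI p n z ((bSetup p n).m k) = logCoeff p n k := by
  rw [← e0Setup_m]
  induction k using Nat.strong_induction_on with
  | _ k ih =>
    cases k with
    | zero => simp
    | succ k =>
      rw [Setup.m_succ, Setup.m_succ, map_mul, evI, evK_pinv, map_sum]
      congr 1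
      refine Finset.sum_congr rfl fun j hj => ?_
      rw [← evI, map_mul, map_pow, evI_ι, ih j (mem_range.mp hj), bSetup_v, ev_vB]
      rfl

/-- The moved parameters of z. -/
def par (z : ℕ → E0 p n) (i : ℕ) : E0 p n := ev p n z (wB n i)

theorem evI_Kc (z : ℕ → E0 p n) (k : ℕ) :
    evI p n z (Kc p n k) = curveLog p n (fun j => z (j + n)) k := by
  rw [Kc, map_sum, curveLog]
  refine Finset.sum_congr rfl fun i _ => ?_
  rw [map_mul, map_pow, evI_m, evI_ι]
  simp [pt, xt]

theorem evI_Rc_succ (z : ℕ → E0 p n) (k : ℕ) : evI p n z (Rc p n (k + 1)) =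
    (p : E0Inv p n) * curveLog p n (fun j => z (j + n)) (k + 1) -
      ∑ i ∈ range (k + 1), curveLog p n (fun j => z (j + n)) i *
        algebraMap (E0 p n) (E0Inv p n) (par p n z (k + 1 - i)) ^ p ^ i := by
  rw [Rc, if_neg (Nat.succ_ne_zero k), map_sub, map_mul, map_natCast, evI_Kc, gc, map_sum]
  congr 1
  refine Finset.sum_congr rfl fun i _ => ?_
  rw [map_mul, map_pow, evI_Kc, evI_ι]
  rfl

theorem recursion_of_fixed {z : ℕ → E0 p n} (hz : ∀ k, 1 ≤ k → T p n z k = z k) (k : ℕ) :
    (p : E0Inv p n) * curveLog p n (fun j => z (j + n)) (k + 1) =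
      ∑ i ∈ range (k + 1), curveLog p n (fun j => z (j + n)) i *
        algebraMap (E0 p n) (E0Inv p n) (par p n z (k + 1 - i)) ^ p ^ i := by
  rw [← sub_eq_zero, ← evI_Rc_succ, Rc_eq, map_sum]
  refine Finset.sum_eq_zero fun i _ => ?_
  have h : ev p n z (Wp p n i) = 0 := by
    rcases Nat.eq_zero_or_pos i with rfl | hi
    · rw [Wp_zero, map_zero]
    · have := hz i hi
      rwa [T, if_neg (by omega), add_eq_left] at this
  rw [map_mul, map_pow, evI_ι, h, map_zero, zero_pow (pow_ne_zero _ (Fact.out : p.Prime).ne_zero),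
    mul_zero]

/-- The identity solution. -/
def zstar (k : ℕ) : E0 p n := if k < n then vv p n k else if k = n then 1 else 0

theorem good_zstar : Good p n (zstar p n) :=
  ⟨fun i h1 h2 => by rw [zstar, if_pos h2]; exact residue_vv p n ⟨h1, h2⟩, by simp [zstar]⟩

theorem par_zstar (i : ℕ) : par p n (zstar p n) i = vv p n i := by
  unfold par wB xw
  split_ifs with h1 h2
  · simp [pt, h1, zstar]
  · simp [vv, h2]
  · simp [vv, h1, h2]

theorem curveLog_zstar (k : ℕ) :
    curveLog p n (fun j => zstar p n (j + n)) k = logCoeff p n k := by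
  rw [curveLog, Finset.sum_eq_single 0]
  · simp [zstar]
  · intro i _ hi
    simp [zstar, hi, (Fact.out : p.Prime).ne_zero]
  · simp

theorem ev_zstar (k : ℕ) : ev p n (zstar p n) (Wp p n k) = 0 := by
  induction k using Nat.strong_induction_on with
  | _ k ih =>
    rcases k with _ | k
    · rw [Wp_zero, map_zero]
    have h0 : evI p n (zstar p n) (Rc p n (k + 1)) = 0 := by
      rw [evI_Rc_succ, sub_eq_zero]
      simp only [curveLog_zstar, par_zstar]
      rw [← e0Setup_m, Setup.m_succ, ← mul_assoc, (e0Setup p n).p_pinv, one_mul]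
      exact Finset.sum_congr rfl fun i _ => by rw [e0Setup_m]; rfl
    rw [Rc_eq, map_sum, Finset.sum_range_succ, Finset.sum_eq_zero, zero_add, Nat.sub_self,
      Setup.m_zero, one_mul, pow_zero, pow_one, evI_ι] at h0
    · exact (map_eq_zero_iff _ (e0Setup p n).inj).mp h0
    · intro i hi
      rw [map_mul, map_pow, evI_ι, ih i (mem_range.mp hi), map_zero,
        zero_pow (pow_ne_zero _ (Fact.out : p.Prime).ne_zero), mul_zero]

theorem T_zstar {k : ℕ} (hk : 1 ≤ k) : T p n (zstar p n) k = zstar p n k := by
  rw [T, if_neg (by omega), ev_zstar, add_zero]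

/-- The maximal ideal. -/
abbrev mE : Ideal (E0 p n) := IsLocalRing.maximalIdeal (E0 p n)

theorem good_iterate (hn : 2 ≤ n) {z : ℕ → E0 p n} (hz : Good p n z) (r : ℕ) :
    Good p n ((T p n)^[r] z) := by
  induction r with
  | zero => exact hz
  | succ r ih => rw [Function.iterate_succ_apply']; exact good_T p n hn ih

theorem iterate_diff (hn : 2 ≤ n) {z : ℕ → E0 p n} (hz : Good p n z) (r : ℕ) :
    ∀ k, 1 ≤ k → (T p n)^[r + 1] z k - (T p n)^[r] z k ∈ mE p n ^ (r + 1) := by
  induction r with
  | zero =>
    intro k hk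
    rw [zero_add, pow_one, mem_maximal_iff, map_sub, Function.iterate_one, Function.iterate_zero,
      id_eq, residue_T p n hn hz hk, sub_self]
  | succ r ih =>
    intro k hk
    rw [Function.iterate_succ_apply' (T p n) (r + 1) z, Function.iterate_succ_apply' (T p n) r z]
    refine step p n hn (good_T p n hn (good_iterate p n hn hz r)) (by omega) hk fun i hi _ => ?_
    have := ih i hi
    rwa [Function.iterate_succ_apply'] at this

theorem exists_fixed (hn : 2 ≤ n) (hc : IsAdicComplete (mE p n) (E0 p n))
    {z₀ : ℕ → E0 p n} (hz₀ : Good p n z₀) :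
    ∃ z : ℕ → E0 p n, Good p n z ∧ (∀ k, 1 ≤ k → residue (z k) = residue (z₀ k)) ∧
      (∀ k, 1 ≤ k → T p n z k = z k) ∧
      ∀ r k, 1 ≤ k → (T p n)^[r] z₀ k - z k ∈ mE p n ^ r := by
  have hcauchy : ∀ k, 1 ≤ k → ∀ r s, r ≤ s →
      (T p n)^[s] z₀ k - (T p n)^[r] z₀ k ∈ mE p n ^ r := by
    intro k hk r s hrs
    induction s, hrs using Nat.le_induction with
    | base => simp
    | succ s hs ih =>
      have := add_mem (Ideal.pow_le_pow_right (by omega) (iterate_diff p n hn hz₀ s k hk)) ih
      convert this using 1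
      ring
  have hlim : ∀ k, ∃ x : E0 p n, 1 ≤ k → ∀ r, (T p n)^[r] z₀ k - x ∈ mE p n ^ r := by
    intro k
    by_cases hk : 1 ≤ k
    · obtain ⟨x, hx⟩ := IsPrecomplete.prec hc.toIsPrecomplete
        (f := fun r => (T p n)^[r] z₀ k) (fun {r s} hrs => by
          rw [SModEq.sub_mem, smul_eq_mul, Ideal.mul_top, ← neg_mem_iff, neg_sub]
          exact hcauchy k hk r s hrs)
      refine ⟨x, fun _ r => ?_⟩
      have := hx r
      rwa [SModEq.sub_mem, smul_eq_mul, Ideal.mul_top] at this
    · exact ⟨0, fun h => absurd h hk⟩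
  choose z hz using hlim
  have hres : ∀ k, 1 ≤ k → residue (z k) = residue (z₀ k) := by
    intro k hk
    have h1 := hz k hk 1
    rw [pow_one, mem_maximal_iff, map_sub, sub_eq_zero, Function.iterate_one,
      residue_T p n hn hz₀ hk] at h1
    exact h1.symm
  have hg : Good p n z :=
    ⟨fun i h1 h2 => by rw [hres i h1]; exact hz₀.1 i h1 h2,
      by rw [hres n (by omega)]; exact hz₀.2⟩
  refine ⟨z, hg, hres, fun k hk => ?_, fun r k hk => hz k hk r⟩
  rw [← sub_eq_zero]
  refine IsHausdorff.haus hc.toIsHausdorff _ fun r => ?_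
  rw [SModEq.sub_mem, sub_zero, smul_eq_mul, Ideal.mul_top]
  rcases Nat.eq_zero_or_pos r with rfl | hr
  · simp
  have h1 := step p n hn hg (r := r) (k := k) (z' := (T p n)^[r] z₀) hr hk fun i hi _ => by
    rw [← neg_mem_iff, neg_sub]; exact hz i hi r
  have h2 := hz k hk (r + 1)
  rw [Function.iterate_succ_apply'] at h2
  have := add_mem (Ideal.pow_le_pow_right (Nat.le_succ r) h1)
    (Ideal.pow_le_pow_right (Nat.le_succ r) h2)
  convert this using 1
  ring

/-- The starting point of the iteration. -/
def start (d : ℕ → GaloisField p n) (k : ℕ) : E0 p n :=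
  if k < n then 0 else teich p n (d (k - n))

theorem near_zstar (hn : 2 ≤ n) {d : ℕ → GaloisField p n} {L : ℕ} (hd0 : d 0 = 1)
    (hd : ∀ j, 0 < j → j < L → d j = 0) (r : ℕ) :
    ∀ k, 1 ≤ k → k + r * n < L + n →
      (T p n)^[r] (start p n d) k - zstar p n k ∈ mE p n ^ (r + 1) := by
  have hg : Good p n (start p n d) :=
    ⟨fun i _ hi => by simp [start, hi], by simp [start, residue_teich, hd0]⟩
  induction r with
  | zero =>
    intro k hk hkl
    rw [zero_add, pow_one, mem_maximal_iff, map_sub, sub_eq_zero, Function.iterate_zero, id_eq]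
    rcases lt_or_ge k n with h | h
    · rw [hg.1 k hk h, (good_zstar p n).1 k hk h]
    · rcases eq_or_lt_of_le h with rfl | h'
      · rw [hg.2, (good_zstar p n).2]
      · simp only [start, if_neg (Nat.not_lt.mpr h), residue_teich]
        rw [hd _ (by omega) (by omega)]
        simp [zstar, show ¬ k < n by omega, show k ≠ n by omega]
  | succ r ih =>
    intro k hk hkl
    rw [Function.iterate_succ_apply', ← T_zstar p n hk]
    refine step p n hn (good_iterate p n hn hg r) (by omega) hk fun i hi hik => ih i hi ?_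
    rw [Nat.succ_mul] at hkl
    omega

theorem par_good {z : ℕ → E0 p n} (hz : Good p n z) {i : ℕ} (h1 : 1 ≤ i) (h2 : i < n) :
    par p n z i ∈ mE p n := by
  rw [mem_maximal_iff]
  simp [par, wB, xw, pt, h1, h2, hz.1]

theorem par_sub (z : ℕ → E0 p n) (i : ℕ) (N : ℕ)
    (h : 1 ≤ i → i < n → z i - zstar p n i ∈ mE p n ^ N) :
    par p n z i - vv p n i ∈ mE p n ^ N := by
  rw [← par_zstar p n i]
  unfold par wB xw
  split_ifs with h1
  · simpa [pt, h1] using h h1.1 h1.2
  · simp
  · simp

theorem digit_start (d : ℕ → GaloisField p n) (j : ℕ) :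
    residue (start p n d (j + n)) = d j := by
  simp [start, residue_teich]

theorem par_n (z : ℕ → E0 p n) : par p n z n = 1 := by
  simp [par, wB]

theorem par_out (hn : 1 ≤ n) (z : ℕ → E0 p n) {i : ℕ} (hi : ¬(1 ≤ i ∧ i ≤ n)) : par p n z i = 0 := by
  unfold par wB
  rw [if_neg (by omega), if_neg (by omega), map_zero]

theorem zstar_digit (j : ℕ) : zstar p n (j + n) = if j = 0 then 1 else 0 := by
  rcases j with _ | j
  · simp [zstar]
  · simp [zstar, show ¬ j + 1 + n < n by omega]

theorem deepDigits_zero (l : ℕ) (c : ℕ → GaloisField p n) : deepDigits n l c 0 = 1 := by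
  simp [deepDigits]

theorem corePin (hS : SigmaPin) : CorePin := by
  intro p n hp hn c
  have hc : IsAdicComplete (mE p n) (E0 p n) := (hS p n).1
  have hg : ∀ l, Good p n (start p n (deepDigits n l c)) := fun l =>
    ⟨fun i _ hi => by simp [start, hi],
      by simp [start, residue_teich, deepDigits_zero]⟩
  choose z hzg hzres hzfix hzlim using fun l => exists_fixed p n hn hc (hg l)
  refine ⟨fun l i => par p n (z l) i, fun l j => z l (j + n), fun l hl => ?_, fun N J => ?_⟩
  · refine ⟨par_n p n _, fun i hi => par_out p n (by omega) _ hi, fun i h1 h2 => par_good p n (hzg l) h1 h2,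
      fun j => ?_, ?_, recursion_of_fixed p n (hzfix l)⟩
    · rw [hzres l (j + n) (by omega), digit_start]
    · by_contra hu
      have h1 : z l (0 + n) ∈ mE p n := (IsLocalRing.mem_maximalIdeal _).mpr hu
      rw [mem_maximal_iff, zero_add, (hzg l).2] at h1
      exact one_ne_zero h1
  · refine ⟨N + J + 1, fun l hl => ?_⟩
    have hln : (N + J + 1) * n ≤ n * l := by
      rw [Nat.mul_comm n l]; exact Nat.mul_le_mul_right n hl
    rw [Nat.add_mul, Nat.add_mul, one_mul] at hln
    have key : ∀ k, 1 ≤ k → k + N * n < n * l + n → z l k - zstar p n k ∈ mE p n ^ N := by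
      intro k hk hkl
      have h1 := near_zstar p n hn (deepDigits_zero p n l c)
        (fun j h0 hj => by simp [deepDigits, Nat.pos_iff_ne_zero.mp h0, Nat.not_le.mpr hj])
        N k hk hkl
      have := sub_mem (Ideal.pow_le_pow_right (Nat.le_succ N) h1) (hzlim l N k hk)
      convert this using 1
      ring
    refine ⟨fun i => par_sub p n _ i N fun h1 h2 => key i h1 (by omega), fun j hj => ?_⟩
    have hJn : j ≤ J * n := le_trans hj.le (Nat.le_mul_of_pos_right J (by omega))
    have h := key (j + n) (by omega) (by omega)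
    rwa [zstar_digit] at h

end Vale.Agent.P217.B
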